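import Vale.Agent.P283R.Cx.Dwn

/-!
# P283R, block LX: the logarithmic frame along an orbit
-/

open Set
open Vale.Agent.P285N.Brep (jac Fr)
open Vale.Agent.P297Z
open Vale.Agent.P287D Vale.Agent.P283R.To Vale.Agent.P283R.Cx

noncomputable section

namespace Vale.Agent.P283R.Lx

variable {K F : Type} [Field K] [Algebra ℂ K] [Field F] [Algebra ℂ F] [Algebra K F]
  [IsScalarTower ℂ K F] {d k r : ℕ} {y : Fin d → K} {t : Fin k → F}

namespace L33

omit [Algebra ℂ K] [IsScalarTower ℂ K F] in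
/-- monomial changes of the torus coordinates -/
theorem lg_mon (hF : FF F (d + k)) (hz : AlgebraicIndependent ℂ (Gp.fm y t))
    {A : Matrix (Fin k) (Fin k) ℤ} (hA : A.det ≠ 0) :
    AlgebraicIndependent ℂ (Gp.fm y fun i => mon t (A i)) ∧
      ∀ U, Gp.lg y (fun i => mon t (A i)) U = Gp.lg y t U := by
  let B : Matrix (Fin (d + k)) (Fin (d + k)) ℤ :=
    (Matrix.fromBlocks (1 : Matrix (Fin d) (Fin d) ℤ) 0 0 A).submatrix
      finSumFinEquiv.symm finSumFinEquiv.symm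
  have hB : B.det ≠ 0 := by
    rw [Matrix.det_submatrix_equiv_self, Matrix.det_fromBlocks_zero₂₁]
    simpa using hA
  have e : (Gp.fm y fun i => mon t (A i)) = fun i => mon (Gp.fm y t) (B i) := funext fun i => by
    rw [mon, Fin.prod_univ_add]
    refine Fin.addCases (fun i => ?_) (fun i => ?_) i
    · rw [Finset.prod_eq_single i (fun j _ h => by simp [B, Matrix.one_apply_ne' h]) (by simp)]
      simp [B, Gp.fm]
    · simp [B, Gp.fm, mon]
  refine ⟨e ▸ ind_det hF hz hB, fun U => ?_⟩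
  have h := la_mon hF hz hB U
  rw [← e, la, la, Fin.sum_univ_add, Fin.sum_univ_add] at h
  simp only [Gp.fm, Fin.append_left, Fin.append_right] at h
  simp only [Gp.lg, Gp.fm]
  linarith

/-- scaling and translating the torus coordinates -/
theorem kap_aff (hK : FF K d) (hF : FF F (d + k)) (hy : AlgebraicIndependent ℂ y)
    (hz : AlgebraicIndependent ℂ (Gp.fm y t)) {a : Fin k → K} (a0 : ∀ i, a i ≠ 0)
    (c : Fin k → ℂ) (U : Pl F) :
    AlgebraicIndependent ℂ (Gp.fm y fun i => t i * algebraMap K F (a i) - algebraMap ℂ F (c i)) ∧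
      kap (Gp.fm y fun i => t i * algebraMap K F (a i) - algebraMap ℂ F (c i)) U =
        kap (Gp.fm y t) U + ∑ i, (U.ord (algebraMap K F (a i)) : ℝ) := by
  obtain ⟨E, hE⟩ := Cb.fr_of hK hy
  obtain ⟨D, hD⟩ := Cb.exists_lf hF U
  have b0 : ∀ i, algebraMap K F (a i) ≠ 0 := fun i => (map_ne_zero _).2 (a0 i)
  have p1 := Finset.prod_ne_zero_iff.2 fun i (_ : i ∈ Finset.univ) => b0 i
  have e1 : jac D (Gp.fm y fun i => t i * algebraMap K F (a i)) =
      jac D (Gp.fm y t) * ∏ i, algebraMap K F (a i) := by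
    rw [Gp.fm_eq, Gp.fm_eq, ← jac_dt, ← jac_dt]
    exact dt_mul Gp.hc (fun i => D (finSumFinEquiv.symm.symm i)) hE _ a
  have e2 : jac D (Gp.fm y fun i => t i * algebraMap K F (a i) - algebraMap ℂ F (c i)) =
      jac D (Gp.fm y fun i => t i * algebraMap K F (a i)) := by
    rw [jac, jac]
    congr 1
    ext i j
    refine Fin.addCases (fun j => ?_) (fun j => ?_) j <;> simp [Gp.fm]
  have i1 := P285N.Brep.TbAux.ind D _ (by
    rw [e2, e1]
    exact mul_ne_zero (hD.ne _ hz) p1 :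
    jac D (Gp.fm y fun i => t i * algebraMap K F (a i) - algebraMap ℂ F (c i)) ≠ 0)
  refine ⟨i1, ?_⟩
  have k1 := hD.eq _ i1
  have k0 := hD.eq _ hz
  rw [e2, e1, Pl.ord_mul _ (hD.ne _ hz) p1, ord_prod U b0] at k1
  push_cast at k1
  linarith

theorem dwn' (hK : FF K d) (hF : FF F (d + k)) (hz : AlgebraicIndependent ℂ (Gp.fm y t))
    (U : Pl F) : ((∀ a : K, algebraMap K F a ∈ U.ring) ∧ 0 ≤ Gp.lg y t U) ∨
      ∃ Q, Lies (algebraMap K F) U Q ∧
        U.ord (algebraMap K F Q.t) * (1 + kap y Q) ≤ Gp.lg y t U := by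
  refine (To.trv_or hF Gp.hc U).imp (fun l => ⟨l, ?_⟩) fun ⟨Q, l⟩ => ⟨Q, l, ?_⟩
  · have := Cb.sum_le_kap hF hz U
    rw [Fin.sum_univ_add] at this
    simp only [Gp.fm, Fin.append_left, Fin.append_right] at this
    have h1 : 0 ≤ ∑ j, (U.ord (algebraMap K F (y j)) : ℝ) := Finset.sum_nonneg fun j _ => by
      exact_mod_cast Pl.ord_nonneg_of_mem _ (l _)
    rw [Gp.lg, Gp.fm]
    linarith
  · have := Cb.fib_le hK hF Gp.hc l finSumFinEquiv.symm (Gp.fm_eq y t ▸ hz)
    rw [Gp.lg, Gp.fm_eq]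
    linarith

end L33

/-- the logarithmic frame: the gain along the orbit -/
theorem ldi' (x : Ext K d t) (hy : Frm y) {s : Fin r → K} (s0 : ∀ j, s j ≠ 0)
    {l : Fin r → Fin k → ℤ} (hl : LinearIndependent ℤ l) (c : Fin r → ℂ) (U : Pl F)
    (hU : ∀ j, U.ord (hm t (s j) (l j)) = 0) :
    (∀ j, hm t (s j) (l j) - algebraMap ℂ F (c j) ≠ 0) ∧
    (((∀ a : K, algebraMap K F a ∈ U.ring) ∧
      ∑ j, (U.ord (hm t (s j) (l j) - algebraMap ℂ F (c j)) : ℝ) ≤ lt y t U) ∨
    ∃ Q, Lies (algebraMap K F) U Q ∧ U.ord (algebraMap K F Q.t) * (1 + kap y Q) +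
      ∑ j, (U.ord (hm t (s j) (l j) - algebraMap ℂ F (c j)) : ℝ) ≤ lt y t U) := by
  obtain ⟨r', e, W, hA⟩ := compl hl
  obtain ⟨i1, g1⟩ := L33.lg_mon x.ff' (Gp.fm_ind hy.ind x.ind) hA
  set A := Matrix.of fun i => Sum.elim l W (e i) with hAd
  let a : Fin k → K := fun i => Sum.elim s (fun _ => 1) (e i)
  let c' : Fin k → ℂ := fun i => Sum.elim c (fun _ => 0) (e i)
  have a0 : ∀ i, a i ≠ 0 := fun i => by
    simp only [a]
    rcases e i with j | j
    exacts [s0 j, one_ne_zero]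
  obtain ⟨i2, g2⟩ := L33.kap_aff x.ff x.ff' hy.ind i1 a0 c' U
  set τ : Fin k → F := fun i => mon t (A i) * algebraMap K F (a i) - algebraMap ℂ F (c' i)
    with hτ
  have τ1 : ∀ j, τ (e.symm (.inl j)) = hm t (s j) (l j) - algebraMap ℂ F (c j) := fun j => by
    have : A (e.symm (.inl j)) = l j := funext fun i => by simp [hAd]
    simp [hτ, this, a, c', hm, mul_comm]
  have τ2 : ∀ j, τ (e.symm (.inr j)) = mon t (W j) := fun j => by
    have : A (e.symm (.inr j)) = W j := funext fun i => by simp [hAd]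
    simp [hτ, this, a, c']
  have t0 := x.ind.ne_zero
  have key : Gp.lg y τ U + ∑ j, (U.ord (hm t (s j) (l j) - algebraMap ℂ F (c j)) : ℝ) =
      lt y t U := by
    have h1 := g1 U
    have s1 : ∑ i, (U.ord (τ i) : ℝ) =
        ∑ j, (U.ord (hm t (s j) (l j) - algebraMap ℂ F (c j)) : ℝ) +
          ∑ j, (U.ord (mon t (W j)) : ℝ) := by
      rw [← e.symm.sum_comp, Fintype.sum_sum_type]
      simp only [τ1, τ2]
    have s2 : ∑ i, (U.ord (mon t (A i)) : ℝ) + ∑ i, (U.ord (algebraMap K F (a i)) : ℝ) =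
        ∑ j, (U.ord (mon t (W j)) : ℝ) := by
      rw [← Finset.sum_add_distrib, ← e.symm.sum_comp, Fintype.sum_sum_type]
      have z : ∀ j, (U.ord (mon t (A (e.symm (.inl j)))) : ℝ) +
          U.ord (algebraMap K F (a (e.symm (.inl j)))) = 0 := fun j => by
        have : A (e.symm (.inl j)) = l j := funext fun i => by simp [hAd]
        have h := hU j
        rw [hm, Pl.ord_mul _ ((map_ne_zero _).2 (s0 j)) (mon_ne t0 _)] at h
        simp only [this, a, Equiv.apply_symm_apply, Sum.elim_inl]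
        exact_mod_cast (add_comm _ _).trans h
      have z' : ∀ j, (U.ord (mon t (A (e.symm (.inr j)))) : ℝ) +
          U.ord (algebraMap K F (a (e.symm (.inr j)))) = U.ord (mon t (W j)) := fun j => by
        have : A (e.symm (.inr j)) = W j := funext fun i => by simp [hAd]
        simp [this, a]
      simp only [z, z', Finset.sum_const_zero, zero_add]
    have e0 : lt y t U = Gp.lg y t U := rfl
    rw [e0, ← h1, Gp.lg, Gp.lg, g2, s1]
    linarith
  refine ⟨fun j => τ1 j ▸ ?_, (L33.dwn' x.ff x.ff' i2 U).imp (fun h => ⟨h.1, ?_⟩)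
    fun ⟨Q, h, h'⟩ => ⟨Q, h, ?_⟩⟩
  · simpa [Gp.fm] using i2.ne_zero (Fin.natAdd d (e.symm (.inl j)))
  · linarith [h.2]
  · linarith

/-- **the Gauss inequality with the gain along the orbit** -/
theorem ldi (x : Ext K d t) (hy : Frm y) {s : Fin r → K} (s0 : ∀ j, s j ≠ 0)
    {l : Fin r → Fin k → ℤ} (hl : LinearIndependent ℤ l) (c : Fin r → ℂ) (U : Pl F)
    (hU : ∀ j, U.ord (hm t (s j) (l j)) = 0) :
    ((∀ a : K, algebraMap K F a ∈ U.ring) ∧
      ∑ j, (U.ord (hm t (s j) (l j) - algebraMap ℂ F (c j)) : ℝ) ≤ lt y t U) ∨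
    ∃ Q, Lies (algebraMap K F) U Q ∧ U.ord (algebraMap K F Q.t) * (1 + kap y Q) +
      ∑ j, (U.ord (hm t (s j) (l j) - algebraMap ℂ F (c j)) : ℝ) ≤ lt y t U :=
  (ldi' x hy s0 hl c U hU).2

end Vale.Agent.P283R.Lx
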