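import Vale.Agent.P283R.Lx.St
import Vale.Agent.P283R.Cx.Bas

/-!
# P283R, block LX: the closed orbit
-/

open Set

noncomputable section

namespace Vale.Agent.P283R.Lx

open Vale.Agent.P287D Vale.Agent.P283M Vale.Agent.P283R.Cx

namespace O15

/-- the value at a closed point -/
theorem val {S : Type} [CommRing S] [Algebra ℂ S] [Algebra.FiniteType ℂ S] (p : Ideal S)
    [p.IsMaximal] (x : S) : ∃ c : ℂ, x - algebraMap ℂ S c ∈ p := by
  let := Ideal.Quotient.field p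
  have : Module.Finite ℂ (S ⧸ p) := finite_of_finite_type_of_isJacobsonRing ℂ (S ⧸ p)
  obtain ⟨c, hc⟩ := (IsAlgClosed.algebraMap_bijective_of_isIntegral (k := ℂ) (K := S ⧸ p)).2
    (Ideal.Quotient.mk p x)
  exact ⟨c, Ideal.Quotient.eq.1 hc.symm⟩

variable {K F : Type} [Field K] [Algebra ℂ K] [Field F] [Algebra ℂ F] [Algebra K F]
  {d k N : ℕ} {t : Fin k → F} {s : Fin N → K} {a : Fin N → Fin k → ℤ} {A : Subalgebra ℂ K}
  {m : Ideal A}

theorem not_nz {x : K} (h : x ∈ A) : ¬ Nz A m x ↔ (⟨x, h⟩ : A) ∈ m :=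
  ⟨fun c => by_contra fun z => c ⟨h, z⟩, fun c ⟨_, z⟩ => z c⟩

theorem nz_mul (hm : m.IsPrime) {x y : K} (hx : Nz A m x) (hy : Nz A m y) : Nz A m (x * y) :=
  let ⟨h1, a⟩ := hx; let ⟨h2, b⟩ := hy
  ⟨mul_mem h1 h2, fun c => (hm.mem_or_mem (x := ⟨x, h1⟩) (y := ⟨y, h2⟩) c).elim a b⟩

theorem nz_one (hm : m ≠ ⊤) : Nz A m 1 := ⟨one_mem _, fun c => hm ((Ideal.eq_top_iff_one _).2 c)⟩

theorem one_sp (s : Fin N → K) (a : Fin N → Fin k → ℤ) : (1 : K) ∈ Sp s a 0 := by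
  simpa [dg_zero] using mon_mem s a 0

theorem not_ie {e : Fin k → ℤ} {φ : K} (h : φ ∈ Sp s a e) :
    φ ∉ Ie A m s a e ↔ ∃ ψ ∈ Sp s a (-e), Nz A m (φ * ψ) := by
  refine ⟨fun c => by_contra fun z => c ⟨h, fun ψ x y => z ⟨ψ, x, y⟩⟩, ?_⟩
  rintro ⟨ψ, x, y⟩ c
  exact c.2 ψ x y

theorem ie_zero (e : Fin k → ℤ) : (0 : K) ∈ Ie A m s a e :=
  ⟨zero_mem _, fun ψ _ => by rw [zero_mul]; exact (not_nz (zero_mem A)).2 m.zero_mem⟩

theorem ie_mul {e e' : Fin k → ℤ} {φ χ : K} (h : φ ∈ Ie A m s a e) (h' : χ ∈ Sp s a e') :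
    φ * χ ∈ Ie A m s a (e + e') :=
  ⟨sp_mul h.1 h', fun ψ x => by
    rw [mul_assoc]
    refine h.2 _ ?_
    have := sp_mul h' x
    rwa [show e' + -(e + e') = -e by ring] at this⟩

variable (hz : ∀ x, x ∈ A ↔ x ∈ Sp s a 0)

include hz

theorem mem0 {e : Fin k → ℤ} {φ ψ : K} (h : φ ∈ Sp s a e) (h' : ψ ∈ Sp s a (-e)) : φ * ψ ∈ A :=
  (hz _).2 (by simpa only [add_neg_cancel] using sp_mul h h')

theorem ie_add {e : Fin k → ℤ} {φ χ : K} (h : φ ∈ Ie A m s a e) (h' : χ ∈ Ie A m s a e) :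
    φ + χ ∈ Ie A m s a e :=
  ⟨add_mem h.1 h'.1, fun ψ x => by
    have a1 := mem0 hz h.1 x
    have a2 := mem0 hz h'.1 x
    rw [add_mul]
    exact (not_nz (add_mem a1 a2)).2
      (m.add_mem ((not_nz a1).1 (h.2 ψ x)) ((not_nz a2).1 (h'.2 ψ x)))⟩

theorem ie_base {x : A} (h : x ∈ m) : (x : K) ∈ Ie A m s a 0 :=
  ⟨(hz _).1 x.2, fun ψ y => by
    have a1 : ψ ∈ A := (hz _).2 (by simpa only [neg_zero] using y)
    exact (not_nz (mul_mem x.2 a1)).2 (m.mul_mem_right ⟨ψ, a1⟩ h)⟩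

variable [IsScalarTower ℂ K F]

/-- the ideal of the orbit -/
theorem ideal (ht : AlgebraicIndependent K t) (hm' : m ≠ ⊤) : ∃ I : Ideal (Rg s a t), I ≠ ⊤ ∧
    ∀ e, ∀ φ ∈ Ie A m s a e, ∀ x : Rg s a t, (x : F) = hm t φ e → x ∈ I := by
  classical
  have t0 := ht.ne_zero
  let I : Ideal (Rg s a t) :=
    { carrier := {x | ∃ ψ : (Fin k → ℤ) →₀ K, (∀ e, ψ e ∈ Ie A m s a e) ∧ lv t ψ = x}
      add_mem' := fun ⟨ψ, h1, h2⟩ ⟨χ, h3, h4⟩ =>
        ⟨ψ + χ, fun e => ie_add hz (h1 e) (h3 e), by rw [lv_add, h2, h4]; rfl⟩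
      zero_mem' := ⟨0, fun e => ie_zero e, lv_zero t⟩
      smul_mem' := fun c x ⟨ψ, h1, h2⟩ => by
        obtain ⟨ψ', h3, h4⟩ := (mem_Rg_iff t0).1 c.2
        have : ∀ T : Finset (Fin k → ℤ), ∃ χ : (Fin k → ℤ) →₀ K, (∀ e, χ e ∈ Ie A m s a e) ∧
            lv t χ = lv t ψ * ∑ e ∈ T, hm t (ψ' e) e := fun T => by
          induction T using Finset.induction_on with
          | empty => exact ⟨0, fun e => ie_zero e, by simp [lv_zero]⟩
          | insert e T he ih =>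
            obtain ⟨χ, c1, c2⟩ := ih
            obtain ⟨χ', d1, d2⟩ := lv_shift t0 ψ (ψ' e) e
            refine ⟨χ' + χ, fun x => ie_add hz ?_ (c1 x), ?_⟩
            · rw [← sub_add_cancel x e, d1]
              exact ie_mul (h1 _) (h3 e)
            · rw [lv_add, c2, d2, Finset.sum_insert he, mul_add]
        obtain ⟨χ, c1, c2⟩ := this ψ'.support
        refine ⟨χ, c1, c2.trans ?_⟩
        show lv t ψ * lv t ψ' = c * x
        rw [h2, h4, mul_comm] }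
  refine ⟨I, fun c => ?_, fun e φ h x hx => ⟨Finsupp.single e φ, fun e' => ?_, ?_⟩⟩
  · obtain ⟨ψ, h1, h2⟩ := (Ideal.eq_top_iff_one _).1 c
    have z : ψ + Finsupp.single 0 (-1) = 0 := lv_inj ht (by
      rw [lv_add, h2, lv_single, hm_deg0]; simp)
    have z0 : ψ 0 = 1 := by
      have := DFunLike.congr_fun z 0
      rw [Finsupp.add_apply, Finsupp.single_eq_same] at this
      exact add_neg_eq_zero.1 this
    refine (h1 0).2 1 (by simpa only [neg_zero] using one_sp s a) ?_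
    rw [z0, mul_one]
    exact nz_one hm'
  · rw [Finsupp.single_apply]
    split_ifs with c
    exacts [c ▸ h, ie_zero _]
  · rw [lv_single, hx]

end O15

open O15 in
/-- **ORB** -/
theorem orb : ORB := by
  intro K F _ _ _ _ _ _ d k N t s a A m h
  have t0 := h.ext.ind.ne_zero
  have hz := h.zero
  obtain ⟨I, I1, hI⟩ := ideal (t := t) hz h.ext.ind h.max.ne_top
  obtain ⟨p, hp, Ip⟩ := Ideal.exists_le_maximal I I1
  let L : Submodule ℤ (Fin k → ℤ) := AddSubgroup.toIntSubmodule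
    { carrier := {e | ∃ φ ∈ Sp s a e, ∃ ψ ∈ Sp s a (-e), Nz A m (φ * ψ)}
      add_mem' := fun ⟨φ, h1, ψ, h2, h3⟩ ⟨φ', h4, ψ', h5, h6⟩ =>
        ⟨_, sp_mul h1 h4, _, by rw [neg_add]; exact sp_mul h2 h5, by
          rw [mul_mul_mul_comm]; exact nz_mul h.max.isPrime h3 h6⟩
      zero_mem' := ⟨1, one_sp s a, 1, by simpa only [neg_zero] using one_sp s a, by
        rw [mul_one]; exact nz_one h.max.ne_top⟩
      neg_mem' := fun ⟨φ, h1, ψ, h2, h3⟩ => ⟨ψ, h2, φ, by rwa [neg_neg], by rwa [mul_comm]⟩ }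
  obtain ⟨r, ⟨b⟩⟩ := Submodule.nonempty_basis_of_pid (Pi.basisFun ℤ (Fin k)) L
  have : Algebra.FiniteType ℂ (Rg s a t) :=
    (Subalgebra.fg_iff_finiteType _).1 (Subalgebra.fg_def.2 ⟨_, finite_range _, rfl⟩)
  have key : ∀ e ∈ L, ∃ w ∈ Sp s a e, (∃ v ∈ Sp s a (-e), Nz A m (w * v)) ∧
      ∀ x : Rg s a t, (x : F) = hm t w e - 1 → x ∈ p := by
    rintro e ⟨φ, h1, ψ, h2, h3⟩
    obtain ⟨c, hc⟩ := val p ⟨_, mem_Rg t0 h1⟩
    have c0 : c ≠ 0 := by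
      rintro rfl
      rw [map_zero, sub_zero] at hc
      obtain ⟨h4, h5⟩ := h3
      obtain ⟨y, i, hi, e1⟩ := h.max.exists_inv h5
      have i1 := Ip (hI 0 _ (ie_base hz hi) ⟨_, mem_Rg t0 ((hz _).1 i.2)⟩ rfl)
      have i2 := p.mul_mem_left ⟨_, mem_Rg t0 (sp_mul ((hz _).1 y.2) h2)⟩ hc
      refine hp.ne_top ((Ideal.eq_top_iff_one _).2 ?_)
      refine (congrArg (· ∈ p) (Subtype.ext ?_)).mp (p.add_mem i2 i1)
      show hm t (y * ψ) (0 + -e) * hm t φ e + hm t (i : K) 0 = 1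
      have e2 : (y : K) * (φ * ψ) + i = 1 := congrArg Subtype.val e1
      rw [← hm_mul t0, show 0 + -e + e = 0 by ring, ← hm_add,
        show (y : K) * ψ * φ = y * (φ * ψ) by ring, e2, hm_one]
    refine ⟨c⁻¹ • φ, Submodule.smul_mem _ _ h1, ⟨c • ψ, Submodule.smul_mem _ _ h2, ?_⟩,
      fun x hx => ?_⟩
    · rwa [smul_mul_smul_comm, inv_mul_cancel₀ c0, one_smul]
    · refine (congrArg (· ∈ p) (Subtype.ext ?_)).mp (p.mul_mem_left (algebraMap ℂ _ c⁻¹) hc)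
      show algebraMap ℂ F c⁻¹ * (hm t φ e - algebraMap ℂ F c) = x
      rw [hx, hm_smul, mul_sub, ← map_mul, inv_mul_cancel₀ c0, map_one, Algebra.smul_def]
  choose w w1 w2 w3 using fun j => key _ (b j).2
  refine ⟨p, r, fun j => b j, w, hp, b.linearIndependent.map' L.subtype L.ker_subtype, w1, w2, w3,
    fun e φ h1 h2 => ?_, fun e φ h1 x hx => Ip (hI e φ h1 x hx)⟩
  have he : e ∈ L := ⟨φ, h1, (not_ie h1).1 h2⟩
  have := Submodule.mem_map_of_mem (f := L.subtype) (b.mem_span ⟨e, he⟩)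
  rwa [Submodule.map_span, ← range_comp] at this

end Vale.Agent.P283R.Lx
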