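import Mathlib.RingTheory.Filtration
import Mathlib.RingTheory.Nakayama
import Vale.Agent.P283R.Lx.Orb

/-!
# P283R, block LX: the theorem of Krull and the lemma of Nakayama, degree by degree
-/

open Set

noncomputable section

namespace Vale.Agent.P283R.Lx

open Vale.Agent.P287D Vale.Agent.P283M Vale.Agent.P283R.Cx O15

namespace K33

variable {K F : Type} [Field K] [Algebra ℂ K] [Field F] [Algebra ℂ F] [Algebra K F]
  {d k N c : ℕ} {t : Fin k → F} {s : Fin N → K} {a : Fin N → Fin k → ℤ} {A : Subalgebra ℂ K}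
  {m : Ideal A} {τ : Fin c → A} {e e' : Fin k → ℤ} {x y : K}

/-- the square of the ideal of the orbit -/
def I2 (A : Subalgebra ℂ K) (m : Ideal A) (s : Fin N → K) (a : Fin N → Fin k → ℤ)
    (e : Fin k → ℤ) : Submodule ℂ K :=
  Submodule.span ℂ {z | ∃ e1, ∃ x ∈ Ie A m s a e1, ∃ y ∈ Ie A m s a (e - e1), z = x * y}

/-- the ideal of the parameters -/
def Tm (τ : Fin c → A) (s : Fin N → K) (a : Fin N → Fin k → ℤ) (e : Fin k → ℤ) :
    Submodule ℂ K :=
  Submodule.span ℂ {z | ∃ i, ∃ y ∈ Sp s a e, z = τ i * y}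

/-- the powers of the ideal of the orbit -/
def Pw (A : Subalgebra ℂ K) (m : Ideal A) (s : Fin N → K) (a : Fin N → Fin k → ℤ) :
    ℕ → (Fin k → ℤ) → Submodule ℂ K
  | 0, e => Sp s a e
  | n + 1, e => Submodule.span ℂ
      {z | ∃ e1, ∃ x ∈ Ie A m s a e1, ∃ y ∈ Pw A m s a n (e - e1), z = x * y}

theorem span_mul {T : Set K} {W : Submodule ℂ K} (h : ∀ z ∈ T, z * y ∈ W)
    (hx : x ∈ Submodule.span ℂ T) : x * y ∈ W :=
  (Submodule.span_le (p := W.comap (LinearMap.mulRight ℂ y))).2 h hx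

theorem tm_mul (hx : x ∈ Tm τ s a e) (hy : y ∈ Sp s a e') : x * y ∈ Tm τ s a (e + e') :=
  span_mul (by
    rintro _ ⟨i, z, hz, rfl⟩
    exact Submodule.subset_span ⟨i, _, sp_mul hz hy, mul_assoc _ _ _⟩) hx

theorem pw_gen {n : ℕ} (hx : x ∈ Ie A m s a e) (hy : y ∈ Pw A m s a n e') :
    x * y ∈ Pw A m s a (n + 1) (e + e') :=
  Submodule.subset_span ⟨e, x, hx, y, by rwa [add_sub_cancel_left], rfl⟩

theorem pw_sp : ∀ (n : ℕ) (e : Fin k → ℤ), Pw A m s a n e ≤ Sp s a e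
  | 0, _ => le_rfl
  | n + 1, e => Submodule.span_le.2 (by
      rintro _ ⟨e1, x, hx, y, hy, rfl⟩
      simpa using sp_mul hx.1 (pw_sp n _ hy))

theorem pw_succ : ∀ (n : ℕ) (e : Fin k → ℤ), Pw A m s a (n + 1) e ≤ Pw A m s a n e
  | 0, e => pw_sp 1 e
  | n + 1, e => Submodule.span_le.2 (by
      rintro _ ⟨e1, x, hx, y, hy, rfl⟩
      exact Submodule.subset_span ⟨e1, x, hx, y, pw_succ n _ hy, rfl⟩)

theorem i2_mul {n : ℕ} (hx : x ∈ I2 A m s a e) (hy : y ∈ Pw A m s a n e') :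
    x * y ∈ Pw A m s a (n + 2) (e + e') :=
  span_mul (by
    rintro _ ⟨e1, u, hu, v, hv, rfl⟩
    have := pw_gen hu (pw_gen hv hy)
    rwa [← mul_assoc, show e1 + (e - e1 + e') = e + e' by ring] at this) hx

section step

variable {M : (Fin k → ℤ) → Submodule ℂ K}
  (mul : ∀ {e e' x y}, x ∈ M e → y ∈ M e' → x * y ∈ M (e + e'))
  (h1 : ∀ e, ∀ φ ∈ Sp s a e, ∃ x ∈ M e, φ - x ∈ Ie A m s a e)
  (h2 : ∀ e, ∀ φ ∈ Ie A m s a e, ∃ x ∈ M e, x ∈ Ie A m s a e ∧
    φ - x ∈ I2 A m s a e ⊔ Tm τ s a e)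

include mul h1 h2

theorem step : ∀ (n : ℕ) (e : Fin k → ℤ),
    Pw A m s a n e ≤ (M e ⊓ Pw A m s a n e) ⊔ (Pw A m s a (n + 1) e ⊔ Tm τ s a e)
  | 0, e => fun φ h => by
    obtain ⟨x, x1, x2⟩ := h1 e φ h
    have b := pw_gen (n := 0) x2 (one_sp s a)
    rw [mul_one, add_zero] at b
    rw [← add_sub_cancel x φ]
    exact Submodule.add_mem_sup ⟨x1, by simpa using sub_mem h x2.1⟩ (Submodule.mem_sup_left b)
  | n + 1, e => Submodule.span_le.2 (by
      rintro _ ⟨e1, x, hx, y, hy, rfl⟩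
      obtain ⟨y1, ⟨b1, b2⟩, _, b3, rfl⟩ := Submodule.mem_sup.1 (step n _ hy)
      obtain ⟨y2, b5, y3, b4, rfl⟩ := Submodule.mem_sup.1 b3
      obtain ⟨x1, c1, c2, c3⟩ := h2 _ x hx
      obtain ⟨x2, c6, x3, c4, c5⟩ := Submodule.mem_sup.1 c3
      have q : e1 + (e - e1) = e := add_sub_cancel _ _
      have q' : e - e1 + e1 = e := sub_add_cancel _ _
      have : x * (y1 + (y2 + y3)) = x1 * y1 + ((x2 * y1 + x * y2) + (x3 * y1 + y3 * x)) := by
        linear_combination (-y1) * c5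
      rw [SetLike.mem_coe, this]
      exact Submodule.add_mem_sup ⟨q ▸ mul c1 b1, q ▸ pw_gen c2 b2⟩ (Submodule.add_mem_sup
        (add_mem (q ▸ i2_mul c6 b2) (q ▸ pw_gen hx b5))
        (add_mem (q ▸ tm_mul c4 (pw_sp n _ b2)) (q' ▸ tm_mul b4 hx.1))))

theorem iter (e : Fin k → ℤ) : ∀ n : ℕ,
    Sp s a e ≤ (M e ⊓ Sp s a e) ⊔ (Pw A m s a n e ⊔ Tm τ s a e)
  | 0 => le_sup_of_le_right le_sup_left
  | n + 1 => (iter e n).trans (sup_le le_sup_left (sup_le ((step mul h1 h2 n e).trans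
      (sup_le_sup_right (inf_le_inf_left _ (pw_sp n e)) _)) (le_sup_of_le_right le_sup_right)))

end step

/-- the homogeneous parts of the ideal of the orbit -/
def IeS (hz : ∀ x, x ∈ A ↔ x ∈ Sp s a 0) (m : Ideal A) (e : Fin k → ℤ) : Submodule ℂ K where
  carrier := Ie A m s a e
  add_mem' := ie_add hz
  zero_mem' := ie_zero e
  smul_mem' := fun r x h => by
    have := ie_mul h (Submodule.smul_mem _ r (one_sp s a))
    rwa [mul_smul_comm, mul_one, add_zero] at this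

variable [IsScalarTower ℂ K F]

omit [Algebra ℂ K] [Algebra ℂ F] [IsScalarTower ℂ K F] in
theorem lv_eq (ht : AlgebraicIndependent K t) {ψ χ : (Fin k → ℤ) →₀ K} (h : lv t ψ = lv t χ) :
    ψ = χ := by
  have := lv_add t (ψ - χ) χ
  rw [sub_add_cancel, h] at this
  exact sub_eq_zero.1 (lv_inj ht (by linear_combination -this))

/-- the ideal with given homogeneous parts -/
def idl (t0 : ∀ i, t i ≠ 0) (J : (Fin k → ℤ) → Submodule ℂ K)
    (hJ : ∀ {e e' x y}, x ∈ J e → y ∈ Sp s a e' → x * y ∈ J (e + e')) : Ideal (Rg s a t) where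
  carrier := {x | ∃ ψ : (Fin k → ℤ) →₀ K, (∀ e, ψ e ∈ J e) ∧ lv t ψ = x}
  add_mem' := fun ⟨ψ, h1, h2⟩ ⟨χ, h3, h4⟩ =>
    ⟨ψ + χ, fun e => add_mem (h1 e) (h3 e), by rw [lv_add, h2, h4]; rfl⟩
  zero_mem' := ⟨0, fun _ => zero_mem _, lv_zero t⟩
  smul_mem' := fun c x ⟨ψ, h1, h2⟩ => by
    classical
    obtain ⟨ψ', h3, h4⟩ := (mem_Rg_iff t0).1 c.2
    have : ∀ T : Finset (Fin k → ℤ), ∃ χ : (Fin k → ℤ) →₀ K, (∀ e, χ e ∈ J e) ∧
        lv t χ = lv t ψ * ∑ e ∈ T, hm t (ψ' e) e := fun T => by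
      induction T using Finset.induction_on with
      | empty => exact ⟨0, fun _ => zero_mem _, by simp [lv_zero]⟩
      | insert e T he ih =>
        obtain ⟨χ, c1, c2⟩ := ih
        obtain ⟨χ', d1, d2⟩ := lv_shift t0 ψ (ψ' e) e
        refine ⟨χ' + χ, fun x => add_mem ?_ (c1 x), ?_⟩
        · rw [← sub_add_cancel x e, d1]
          exact hJ (h1 _) (h3 e)
        · rw [lv_add, c2, d2, Finset.sum_insert he, mul_add]
    obtain ⟨χ, c1, c2⟩ := this ψ'.support
    refine ⟨χ, c1, c2.trans ?_⟩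
    show lv t ψ * lv t ψ' = c * x
    rw [h2, h4, mul_comm]

theorem idl_hm (t0 : ∀ i, t i ≠ 0) {J : (Fin k → ℤ) → Submodule ℂ K}
    {hJ : ∀ {e e' x y}, x ∈ J e → y ∈ Sp s a e' → x * y ∈ J (e + e')} (h : x ∈ J e)
    (z : Rg s a t) (hz : (z : F) = hm t x e) : z ∈ idl t0 J hJ := by
  classical
  refine ⟨Finsupp.single e x, fun e' => ?_, by rw [lv_single, hz]⟩
  rw [Finsupp.single_apply]
  split_ifs with c
  exacts [c ▸ h, zero_mem _]

omit [IsScalarTower ℂ K F] in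
theorem tm_of (hz : ∀ x, x ∈ A ↔ x ∈ Sp s a 0) {i : A} (hi : i ∈ Ideal.span (range τ))
    (hy : y ∈ Sp s a e) : i * y ∈ Tm τ s a e := by
  obtain ⟨r, rfl⟩ := Ideal.mem_span_range_iff_exists_fun.1 hi
  rw [AddSubmonoidClass.coe_finsetSum, Finset.sum_mul]
  refine sum_mem fun j _ => Submodule.subset_span ⟨j, r j * y, ?_, ?_⟩
  · simpa using sp_mul ((hz _).1 (r j).2) hy
  · push_cast
    ring

theorem krull0 {R : Type} [CommRing R] [IsNoetherianRing R] (I T : Ideal R) (x : R)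
    (h : ∀ j, ∃ z ∈ I ^ j, x - z ∈ T) : ∃ r ∈ I, r * x - x ∈ T := by
  obtain ⟨⟨r, r1⟩, hr⟩ := (I.mem_iInf_smul_pow_eq_bot_iff (M := R ⧸ T)
    (Submodule.Quotient.mk x)).1 ((Submodule.mem_iInf _).2 fun j => by
      obtain ⟨z, z1, z2⟩ := h j
      have : Submodule.Quotient.mk (p := T) x = z • Submodule.Quotient.mk 1 := by
        rwa [← Submodule.Quotient.mk_smul, smul_eq_mul, mul_one, Submodule.Quotient.eq]
      rw [this]
      exact Submodule.smul_mem_smul z1 trivial)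
  rw [← Submodule.Quotient.mk_smul, Submodule.Quotient.eq] at hr
  exact ⟨r, r1, hr⟩

/-- the theorem of Krull -/
theorem krull (h : Bs d t s a A m) {n : ℕ} (hn : m ^ n ≤ Ideal.span (range τ))
    (H : ∀ j, x ∈ Pw A m s a j e ⊔ Tm τ s a e) (hx : x ∈ Sp s a e) : x ∈ Tm τ s a e := by
  have t0 := h.ext.ind.ne_zero
  have hz := h.zero
  have : Algebra.FiniteType ℂ (Rg s a t) :=
    (Subalgebra.fg_iff_finiteType _).1 (Subalgebra.fg_def.2 ⟨_, finite_range _, rfl⟩)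
  have : IsNoetherianRing (Rg s a t) := Algebra.FiniteType.isNoetherianRing ℂ _
  let I : Ideal (Rg s a t) := idl t0 (IeS hz m) fun b c => ie_mul b c
  let T : Ideal (Rg s a t) := idl t0 (Tm τ s a) tm_mul
  have pw : ∀ j e, ∀ φ ∈ Pw A m s a j e, ∃ z ∈ I ^ j, (z : F) = hm t φ e := fun j => by
    induction j with
    | zero => exact fun e φ b => ⟨⟨_, mem_Rg t0 b⟩, by simp, rfl⟩
    | succ j ih =>
      intro e φ b
      induction b using Submodule.span_induction with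
      | mem _ b =>
        obtain ⟨e1, u, hu, v, hv, rfl⟩ := b
        obtain ⟨z, z1, z2⟩ := ih _ v hv
        refine ⟨⟨_, mem_Rg t0 hu.1⟩ * z, ?_, ?_⟩
        · rw [pow_succ']
          exact Ideal.mul_mem_mul (idl_hm t0 (J := IeS hz m) hu _ rfl) z1
        · rw [MulMemClass.coe_mul, z2, ← hm_mul t0, add_sub_cancel]
      | zero => exact ⟨0, zero_mem _, (hm_zero t e).symm⟩
      | add u v _ _ hu hv =>
        obtain ⟨z, z1, z2⟩ := hu
        obtain ⟨w, w1, w2⟩ := hv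
        exact ⟨z + w, add_mem z1 w1, by rw [hm_add, ← z2, ← w2]; rfl⟩
      | smul r u _ hu =>
        obtain ⟨z, z1, z2⟩ := hu
        exact ⟨r • z, Submodule.smul_of_tower_mem _ r z1, by rw [hm_smul, ← z2]; rfl⟩
  let X : Rg s a t := ⟨_, mem_Rg t0 hx⟩
  obtain ⟨r, ⟨ψ, r1, r2⟩, hr⟩ := krull0 I T X fun j => by
    obtain ⟨u, hu, v, hv, q⟩ := Submodule.mem_sup.1 (H j)
    obtain ⟨z, z1, z2⟩ := pw j e u hu
    refine ⟨z, z1, idl_hm t0 hv _ ?_⟩
    show hm t x e - z = _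
    rw [z2, ← q, hm_add]
    ring
  obtain ⟨χ, c1, c2⟩ := hr
  obtain ⟨ψ', d1, d2⟩ := lv_shift t0 ψ x e
  have q : χ + Finsupp.single e x = ψ' := lv_eq h.ext.ind (by
    rw [lv_add, c2, d2, r2, lv_single]
    exact sub_add_cancel _ _)
  have q1 : χ e + x = ψ 0 * x := by
    have := DFunLike.congr_fun q e
    rw [Finsupp.add_apply, Finsupp.single_eq_same] at this
    rw [this, ← d1, zero_add]
  have iA : ψ 0 ∈ A := (hz _).2 (r1 0).1
  have im : (⟨ψ 0, iA⟩ : A) ∈ m := (not_nz iA).1 (by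
    simpa using (r1 0).2 1 (by simpa only [neg_zero] using one_sp s a))
  have k : ∀ j : ℕ, x - ψ 0 ^ j * x ∈ Tm τ s a e := fun j => by
    induction j with
    | zero => simp
    | succ j ih =>
      have := tm_mul ih (r1 0).1
      rw [add_zero] at this
      convert sub_mem this (c1 e) using 1
      linear_combination q1
  have := add_mem (k n) (tm_of hz (hn (Ideal.pow_mem_pow im n)) hx)
  simpa using this

omit [IsScalarTower ℂ K F] in
/-- modules over the ring of the parameters -/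
def sb (τ : Fin c → A) (W : Submodule ℂ K) (h : ∀ i, ∀ x ∈ W, τ i * x ∈ W) :
    Submodule (Algebra.adjoin ℂ (range τ)) K where
  carrier := W
  add_mem' := add_mem
  zero_mem' := zero_mem _
  smul_mem' := fun ⟨b, hb⟩ x hx => by
    show (b : K) * x ∈ W
    induction hb using Algebra.adjoin_induction generalizing x with
    | mem _ b =>
      obtain ⟨i, rfl⟩ := b
      exact h i x hx
    | algebraMap r => exact (Algebra.smul_def r x) ▸ W.smul_mem r hx
    | add u v _ _ hu hv =>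
      rw [AddMemClass.coe_add, add_mul]
      exact add_mem (hu _ hx) (hv _ hx)
    | mul u v _ _ hu hv =>
      rw [MulMemClass.coe_mul, mul_assoc]
      exact hu _ (hv _ hx)

omit [IsScalarTower ℂ K F] in
theorem cst {b : A} (hb : b ∈ Algebra.adjoin ℂ (range τ)) :
    ∃ r : ℂ, b - algebraMap ℂ A r ∈ Ideal.span (range τ) := by
  induction hb using Algebra.adjoin_induction with
  | mem _ b => exact ⟨0, by simpa using Ideal.subset_span b⟩
  | algebraMap r => exact ⟨r, by simp⟩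
  | add u v _ _ hu hv =>
    obtain ⟨r, h⟩ := hu
    obtain ⟨r', h'⟩ := hv
    exact ⟨r + r', by convert add_mem h h' using 1; rw [map_add]; ring⟩
  | mul u v _ _ hu hv =>
    obtain ⟨r, h⟩ := hu
    obtain ⟨r', h'⟩ := hv
    exact ⟨r * r', by
      convert add_mem (Ideal.mul_mem_right v _ h) (Ideal.mul_mem_left _ (algebraMap ℂ A r) h')
        using 1
      rw [map_mul]; ring⟩

omit [IsScalarTower ℂ K F] in
theorem sp_tau (hz : ∀ x, x ∈ A ↔ x ∈ Sp s a 0) (e : Fin k → ℤ) (i : Fin c) :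
    ∀ x ∈ Sp s a e, τ i * x ∈ Sp s a e := fun x hx => by
  simpa using sp_mul ((hz _).1 (τ i).2) hx

omit [IsScalarTower ℂ K F] in
theorem fg (fim : FIM) (hz : ∀ x, x ∈ A ↔ x ∈ Sp s a 0)
    (fin : Module.Finite (Algebra.adjoin ℂ (range τ)) A) (e : Fin k → ℤ) :
    (sb τ (Sp s a e) (sp_tau hz e)).FG := by
  obtain ⟨n, φ, h1, h2⟩ := fim K k N s a e
  have : (sb τ (Sp s a e) (sp_tau hz e)) =
      (Submodule.span A (range φ)).restrictScalars _ := by
    ext x
    rw [Submodule.restrictScalars_mem, Submodule.mem_span_range_iff_exists_fun]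
    refine ⟨fun hx => ?_, ?_⟩
    · obtain ⟨r, r1, rfl⟩ := h2 x hx
      exact ⟨fun i => ⟨r i, (hz _).2 (r1 i)⟩, rfl⟩
    · rintro ⟨r, rfl⟩
      exact sum_mem (S := Sp s a e) fun i _ => zero_add e ▸ sp_mul ((hz _).1 (r i).2) (h1 i)
  rw [this]
  have : Module.Finite A (Submodule.span A (range φ)) :=
    Module.Finite.span_of_finite _ (finite_range _)
  have := Module.Finite.trans (R := Algebra.adjoin ℂ (range τ)) A (Submodule.span A (range φ))
  exact Module.Finite.iff_fg.1 this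

/-- a high power of the ideal of the orbit -/
theorem kru (fim : FIM) (h : Bs d t s a A m)
    (fin : Module.Finite (Algebra.adjoin ℂ (range τ)) A) {n : ℕ}
    (hn : m ^ n ≤ Ideal.span (range τ)) (e : Fin k → ℤ) : ∃ j, Pw A m s a j e ≤ Tm τ s a e := by
  obtain ⟨G, hG⟩ := fg fim h.zero fin e
  have dec : ∀ x ∈ Sp s a e, x ∈ Submodule.span ℂ (G : Set K) ⊔ Tm τ s a e := fun x hx => by
    have hx' : x ∈ Submodule.span (Algebra.adjoin ℂ (range τ)) (G : Set K) := hG ▸ hx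
    clear hx
    induction hx' using Submodule.span_induction with
    | mem _ b => exact Submodule.mem_sup_left (Submodule.subset_span b)
    | zero => exact zero_mem _
    | add _ _ _ _ u v => exact add_mem u v
    | smul b x hx u =>
      obtain ⟨r, hr⟩ := cst b.2
      have := add_mem (Submodule.smul_mem _ r u)
        (Submodule.mem_sup_right (tm_of h.zero hr (e := e) (y := x) (hG ▸ hx :)))
      convert this using 1
      show ((b : A) : K) * x = _
      simp [Algebra.smul_def, sub_mul]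
  have an : Antitone fun j => Pw A m s a j e := antitone_nat_of_succ_le fun j => pw_succ j e
  obtain ⟨j, hj⟩ := IsArtinian.monotone_stabilizes (R := ℂ) (M := Submodule.span ℂ (G : Set K))
    ⟨fun j => OrderDual.toDual ((Pw A m s a j e ⊔ Tm τ s a e).comap (Submodule.subtype _)),
      fun i j ij => Submodule.comap_mono (sup_le_sup_right (an ij) _)⟩
  refine ⟨j, fun x hx => krull h hn (fun i => ?_) (pw_sp j e hx)⟩
  obtain ⟨u, hu, v, hv, rfl⟩ := Submodule.mem_sup.1 (dec x (pw_sp j e hx))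
  have b : (⟨u, hu⟩ : Submodule.span ℂ (G : Set K)) ∈
      (Pw A m s a j e ⊔ Tm τ s a e).comap (Submodule.subtype _) := by
    simpa using sub_mem (Submodule.mem_sup_left (T := Tm τ s a e) hx) (Submodule.mem_sup_right hv)
  have q : (Pw A m s a j e ⊔ Tm τ s a e).comap (Submodule.span ℂ (G : Set K)).subtype =
    (Pw A m s a (max i j) e ⊔ Tm τ s a e).comap (Submodule.subtype _) := hj _ (le_max_right i j)
  rw [q] at b
  exact add_mem (sup_le_sup_right (an (le_max_left i j)) _ b) (Submodule.mem_sup_right hv)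

theorem nak0 {B M : Type} [CommRing B] [AddCommGroup M] [Module B M] (J : Ideal B)
    (N P : Submodule B M) (fg : P.FG)
    (h : ∀ x ∈ P, ∀ Q : Submodule B M, N ≤ Q → (∀ r ∈ J, ∀ y ∈ P, r • y ∈ Q) → x ∈ Q) :
    ∃ r, r - 1 ∈ J ∧ ∀ x ∈ P, r • x ∈ N := by
  obtain ⟨r, r1, r2⟩ := Submodule.exists_sub_one_mem_and_smul_le_of_fg_of_le_sup (I := J)
    (N := N) fg le_rfl fun x hx => h x hx _ le_sup_left fun r hr y hy =>
      Submodule.mem_sup_right (Submodule.smul_mem_smul hr hy)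
  exact ⟨r, r1, fun φ hφ => r2 (Submodule.smul_mem_pointwise_smul φ r _ hφ)⟩

omit [IsScalarTower ℂ K F] in
/-- the lemma of Nakayama -/
theorem nak (fim : FIM) (hz : ∀ x, x ∈ A ↔ x ∈ Sp s a 0)
    (fin : Module.Finite (Algebra.adjoin ℂ (range τ)) A) {W : Submodule ℂ K}
    (hW : ∀ i, ∀ x ∈ W, τ i * x ∈ W) (h : Sp s a e ≤ W ⊔ Tm τ s a e) :
    ∃ g : A, g ∈ Algebra.adjoin ℂ (range τ) ∧ g - 1 ∈ Ideal.span (range τ) ∧
      ∀ φ ∈ Sp s a e, g * φ ∈ W := by
  let J : Ideal (Algebra.adjoin ℂ (range τ)) :=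
    (Ideal.span (range τ)).comap (Algebra.adjoin ℂ (range τ)).val
  obtain ⟨r, r1, r2⟩ := nak0 J (sb τ W hW) _ (fg fim hz fin e) fun x hx Q q1 q2 => by
    obtain ⟨u, hu, v, hv, rfl⟩ := Submodule.mem_sup.1 (h hx)
    refine add_mem (q1 hu) ?_
    clear hx
    induction hv using Submodule.span_induction with
    | mem _ b =>
      obtain ⟨i, y, hy, rfl⟩ := b
      exact q2 ⟨τ i, Algebra.subset_adjoin ⟨i, rfl⟩⟩ (Ideal.subset_span (s := range τ) ⟨i, rfl⟩)
        y hy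
    | zero => exact zero_mem _
    | add _ _ _ _ u v => exact add_mem u v
    | smul r x _ u =>
      have := Submodule.smul_mem _ (algebraMap ℂ (Algebra.adjoin ℂ (range τ)) r) u
      have q : algebraMap ℂ (Algebra.adjoin ℂ (range τ)) r • x = r • x :=
        (Algebra.smul_def r x).symm
      exact q ▸ this
  exact ⟨r, r.2, r1, r2⟩

omit [IsScalarTower ℂ K F] in
theorem coe_adj {g : A} (h : g ∈ Algebra.adjoin ℂ (range τ)) :
    (g : K) ∈ Algebra.adjoin ℂ (range fun i => (τ i : K)) := by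
  have := Subalgebra.mem_map.2 ⟨g, h, rfl (a := A.val g)⟩
  rwa [AlgHom.map_adjoin, ← range_comp] at this

omit [IsScalarTower ℂ K F] in
theorem nz_of (hm : m ≠ ⊤) (hτ : ∀ i, τ i ∈ m) {g : A} (h : g - 1 ∈ Ideal.span (range τ)) :
    Nz A m g := ⟨g.2, fun b => hm ((Ideal.eq_top_iff_one _).2 (by
  simpa using sub_mem b (Ideal.span_le.2 (range_subset_iff.2 hτ) h)))⟩

/-- **Krull and Nakayama** -/
theorem krn (fim : FIM) (h : Bs d t s a A m) (hτ : ∀ i, τ i ∈ m)
    (fin : Module.Finite (Algebra.adjoin ℂ (range τ)) A) {n : ℕ}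
    (hn : m ^ n ≤ Ideal.span (range τ)) {M : (Fin k → ℤ) → Submodule ℂ K}
    (mul : ∀ {e e' x y}, x ∈ M e → y ∈ M e' → x * y ∈ M (e + e')) (τ0 : ∀ i, (τ i : K) ∈ M 0)
    (h1 : ∀ e, ∀ φ ∈ Sp s a e, ∃ x ∈ M e, φ - x ∈ Ie A m s a e)
    (h2 : ∀ e, ∀ φ ∈ Ie A m s a e, ∃ x ∈ M e, x ∈ Ie A m s a e ∧
      φ - x ∈ I2 A m s a e ⊔ Tm τ s a e) (e : Fin k → ℤ) :
    ∃ g ∈ Algebra.adjoin ℂ (range fun i => (τ i : K)), Nz A m g ∧
      ∀ φ ∈ Sp s a e, g * φ ∈ M e := by
  obtain ⟨j, hj⟩ := kru fim h fin hn e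
  obtain ⟨g, g1, g2, g3⟩ := nak fim h.zero fin (W := M e)
    (fun i x hx => by simpa using mul (τ0 i) hx)
    ((iter mul h1 h2 e j).trans (sup_le_sup inf_le_left (sup_le hj le_rfl)))
  exact ⟨g, coe_adj g1, nz_of h.max.ne_top hτ g2, g3⟩

omit [IsScalarTower ℂ K F] in
/-- a function which does not vanish at the point divides a polynomial in the parameters -/
theorem nrm' (fim : FIM) (h : Bs d t s a A m)
    (fin : Module.Finite (Algebra.adjoin ℂ (range τ)) A) {n : ℕ}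
    (hn : m ^ n ≤ Ideal.span (range τ)) (hx : Nz A m x) : ∃ y ∈ A, ∃ g : A,
      g ∈ Algebra.adjoin ℂ (range τ) ∧ g - 1 ∈ Ideal.span (range τ) ∧ x * y = g := by
  obtain ⟨x1, x2⟩ := hx
  obtain ⟨g, g1, g2, g3⟩ := nak (e := 0) fim h.zero fin
    (W := A.toSubmodule.map (LinearMap.mulLeft ℂ x))
    (by
      rintro i _ ⟨y, hy, rfl⟩
      exact ⟨τ i * y, A.mul_mem (τ i).2 hy, mul_left_comm _ _ _⟩)
    fun φ hφ => by
      have := h.max
      obtain ⟨y, i, hi, q⟩ := Ideal.IsMaximal.exists_inv_pow m x2 n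
      have q' : (y : K) * x + i = 1 := congrArg Subtype.val q
      have : φ = x * (y * φ) + i * φ := by linear_combination (-φ) * q'
      rw [this]
      exact Submodule.add_mem_sup ⟨_, A.mul_mem y.2 ((h.zero _).2 hφ), rfl⟩
        (tm_of h.zero (hn hi) hφ)
  obtain ⟨y, y1, y2⟩ := g3 1 (one_sp s a)
  exact ⟨y, y1, g, g1, g2, y2.trans (mul_one _)⟩

omit [IsScalarTower ℂ K F] in
theorem nrm (fim : FIM) (h : Bs d t s a A m)
    (fin : Module.Finite (Algebra.adjoin ℂ (range τ)) A) {n : ℕ}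
    (hn : m ^ n ≤ Ideal.span (range τ)) (hx : Nz A m x) : ∃ y ∈ A,
      x * y ∈ Algebra.adjoin ℂ (range fun i => (τ i : K)) ∧ x * y - 1 ∈ Tm τ s a 0 := by
  obtain ⟨y, y1, g, g1, g2, g3⟩ := nrm' fim h fin hn hx
  exact ⟨y, y1, g3 ▸ coe_adj g1, by simpa [g3] using tm_of h.zero g2 (one_sp s a)⟩

end K33

end Vale.Agent.P283R.Lx
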