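import Vale.Agent.P283R.Lx.Ga3
import Vale.Agent.P283R.Lx.Kn33

/-!
# P283R, block LX: few generators after a localisation
-/

namespace Vale.Agent.P283R.Lx

/-- **GENR** -/
theorem genr3 : GENR := fun hc fim noe => G3.gen_of hc <| by
  intro K F _ _ _ _ _ _ d k N t s a A m bs
  obtain ⟨τ, hτ, fin, n, hn⟩ := noe K d A m bs.ext.ff bs.fg bs.max
  refine ⟨fun i => τ i, fun i => (τ i).2, fun x hx => ?_, K33.I2 A m s a,
    fun e e₁ x hx y hy => Submodule.subset_span ⟨e₁, x, hx, y, hy, rfl⟩,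
    fun M mul _ _ τ0 h1 h2 e => K33.krn fim bs hτ fin hn mul τ0 h1 (fun e φ h => ?_) e⟩
  · obtain ⟨y, y1, g, g1, g2, g3⟩ := K33.nrm' fim bs fin hn hx
    exact ⟨y, y1, g3 ▸ K33.coe_adj g1, g3 ▸ K33.nz_of bs.max.ne_top hτ g2⟩
  · obtain ⟨x, x1, x2, x3⟩ := h2 e φ h
    exact ⟨x, x1, x2, Submodule.mem_sup_left x3⟩

end Vale.Agent.P283R.Lx
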