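import Vale.Agent.P283R.Lx.Pre
import Vale.Agent.P283R.Lx.Gen3

/-!
# P283R, block LX: complexity less than two
-/

namespace Vale.Agent.P283R

theorem Lx.mem : Lx.MEM := Lx.mem_of Lx.genr3

open Sl.Var in
theorem Sl.on_lx : Sl.On fun _ _ _ f ω B z =>
    FanoType f ω ∧ NefOver f (-logCan ω B) ∧ LowComplexity f ω B z := Sl.on_lx_of Lx.mem

end Vale.Agent.P283R
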