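import Vale.Agent.P283R.Sl.Lc
import Vale.Agent.P283R.Lx.All
import Vale.Agent.P283R.Sl.Rl52

/-!
# P283R, block LX: from the local class group to the span of finitely many divisors
-/

open CategoryTheory AlgebraicGeometry

namespace Vale.Agent.P283R.Lx.C23

open Vale.Agent.P287D Vale.Agent.P297Z Vale.Agent.P283M.Br Sl Sl.Var

variable {X Z : Sl.Var} {d ρ : ℕ} {W W' : X.X.Opens} {D : Fin ρ → X.Div}
  {G G' G'' : X.PrimeDiv → ℚ} {f : X.X ⟶ Z.X} {z : Pt Z.X}

theorem mono (h : InSpan W D G) (le : W' ≤ W) (e : ∀ E : X.PrimeDiv, E.1.In W' → G' E = G E) :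
    InSpan W' D G' :=
  let ⟨m, φ, φ0, h⟩ := h
  ⟨m, φ, φ0, fun E c => (e E c).trans (h E (le c))⟩

theorem add (h : InSpan W D G) (h' : InSpan W D G') (r : ℕ) (e : ∀ E, G'' E = r * G E + G' E) :
    InSpan W D G'' :=
  Cox.InSpan.add (X := X.o) h h' r e

theorem dv {φ : X.K} (φ0 : φ ≠ 0) : InSpan W D fun E => ord φ E :=
  ⟨0, φ, φ0, fun E _ => by simp [comb]⟩

theorem zero : InSpan W D fun _ => 0 :=
  mono (dv (W := W) one_ne_zero) le_rfl fun E _ => by
    obtain ⟨P, -, w⟩ := pl_of (X := X.o) plc E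
    exact_mod_cast ((w 1).trans (Pl.ord_one _)).symm

theorem neg (h : InSpan W D G) : InSpan W D fun E => -G E := by
  obtain ⟨m, φ, φ0, h⟩ := h
  refine ⟨-m, φ⁻¹, inv_ne_zero φ0, fun E c => ?_⟩
  obtain ⟨P, -, w⟩ := pl_of (X := X.o) plc E
  have : ord φ⁻¹ E = -ord φ E := ((w _).trans (Pl.ord_inv _ _)).trans (congrArg _ (w _).symm)
  simp only [h E c, this, comb, Pi.neg_apply, neg_mul, Finset.sum_neg_distrib]
  push_cast
  ring

theorem zsm (h : InSpan W D G) (n : ℤ) : InSpan W D fun E => n * G E := by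
  obtain ⟨k, rfl | rfl⟩ := n.eq_nat_or_neg
  · exact add h zero k fun E => by simp
  · exact add (neg h) zero k fun E => by simp

/-- a multiple lies in the span over a neighbourhood -/
def Lo (f : X.X ⟶ Z.X) (z : Pt Z.X) (D : Fin ρ → X.Div) (G : X.PrimeDiv → ℚ) : Prop :=
  ∃ (U : Z.X.Opens) (r : ℕ), z.In U ∧ 0 < r ∧ InSpan (pre f U) D fun E => r * G E

theorem up {U U' : Z.X.Opens} {r r' : ℕ} (h : InSpan (pre f U) D fun E => r * G E) (le : U' ≤ U)
    (dv : r ∣ r') : InSpan (pre f U') D fun E => r' * G E := by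
  obtain ⟨c, rfl⟩ := dv
  exact mono (zsm h c) (fun _ h => le h) fun E _ => by push_cast; ring

theorem lo_all (h : ∀ E, Lo f z D (QDiv.coeff (.single E 1))) (B : X.QDiv) : Lo f z D B.coeff := by
  induction B using Finsupp.induction_linear with
  | zero => exact ⟨⊤, 1, trivial, one_pos, mono zero le_rfl fun E _ => by simp [QDiv.coeff]⟩
  | add A B a b =>
    obtain ⟨U, r, u, r0, a⟩ := a
    obtain ⟨U', r', u', r0', b⟩ := b
    exact ⟨U ⊓ U', r * r', ⟨u, u'⟩, mul_pos r0 r0', add (up a inf_le_left (dvd_mul_right r r'))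
      (up b inf_le_right (dvd_mul_left r' r)) 1 fun E => by simp [QDiv.coeff, mul_add]⟩
  | single E q =>
    obtain ⟨U, r, u, r0, a⟩ := h E
    refine ⟨U, r * q.den, u, mul_pos r0 q.den_pos, mono (zsm a q.num) le_rfl fun E' _ => ?_⟩
    rw [← Rat.den_mul_eq_num]
    by_cases e : E = E'
    · subst e
      simp only [Finsupp.single_eq_same]
      push_cast
      ring
    · simp [Finsupp.single_eq_of_ne' e]

end Vale.Agent.P283R.Lx.C23

namespace Vale.Agent.P283R.Sl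

open Var Lx.C23

theorem LowCx.low {X Z : Var} {d : ℕ} {f : X.X ⟶ Z.X} {ω : X.Form d} {z : Pt Z.X}
    (h : LowCx f ω z) (B : X.QDiv) : LowComplexity f ω B z := by
  obtain ⟨V, Λ, m, φ, S, ρ, D, zV, pr, m0, hφ, hS, cl, lt⟩ := h
  have sg : ∀ (E : X.PrimeDiv) (r : ℕ), QDiv.coeff (.single E (r : ℚ)) =
      fun E' => r * QDiv.coeff (.single E 1) E' := fun E r => funext fun E' => by
    by_cases e : E = E'
    · subst e
      simp
    · simp [Finsupp.single_eq_of_ne' e]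
  have one : ∀ E, Lx.C23.Lo f z D (QDiv.coeff (.single E 1)) := fun E =>
    let ⟨U, r, u, r0, a⟩ := cl E
    ⟨U, r, u, r0, sg E r ▸ a⟩
  obtain ⟨U₁, r₁, u₁, p₁, a₁⟩ := lo_all one B
  obtain ⟨U₂, r₂, u₂, p₂, a₂⟩ := lo_all one Λ
  choose U r u p a using one
  have zi : z ∈ S.inf U := by
    refine Finset.inf_induction (p := fun O : Z.X.Opens => z ∈ O) trivial
      (fun _ a _ b => ⟨a, b⟩) fun E _ => u E
  obtain ⟨W, hW, zW, le⟩ := exists_isAffineOpen_mem_and_subset (X := Z.X) (x := z)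
    (U := V ⊓ U₁ ⊓ U₂ ⊓ S.inf U) ⟨⟨⟨zV, u₁⟩, u₂⟩, zi⟩
  have le : W ≤ V ⊓ U₁ ⊓ U₂ ⊓ S.inf U := le
  simp only [le_inf_iff, Finset.le_inf_iff] at le
  obtain ⟨⟨⟨l0, l1⟩, l2⟩, l3⟩ := le
  have hK : InSpan (pre f W) D fun E => (m * r₂ : ℕ) * logCan ω 0 E := by
    by_cases φ0 : φ = 0
    · exact mono zero le_rfl fun E c => ((hφ E.1 (l0 c)).1 φ0).elim
    · refine mono (add (dv φ0) (zsm (up a₂ l2 dvd_rfl) (-m)) r₂ fun _ => rfl) le_rfl fun E c => ?_
      rw [(hφ E.1 (l0 c)).2 E specializes_rfl]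
      simp only [logCan, Finsupp.zero_apply]
      push_cast
      ring
  refine ⟨W, Λ, m, φ, S, ρ, m * r₂ * r₁ * ∏ E ∈ S, r E, D, hW, zW,
    ⟨fun y c => pr.1 y (l0 c), fun x c => pr.2.1 x (l0 c), fun M E c => pr.2.2 M E (l0 c)⟩, m0,
    fun x c => hφ x (l0 c), by have := Finset.prod_pos fun E (_ : E ∈ S) => p E; positivity,
    fun E e => ⟨hS E e, ?_⟩, up hK le_rfl ((dvd_mul_right _ _).mul_right _),
    up a₁ l1 ((dvd_mul_left _ _).mul_right _), lt⟩
  rw [sg]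
  exact up (a E) (l3 E e) ((Finset.dvd_prod_of_mem r e).mul_left _)

/-- bounded klt complements for the contractions of complexity less than two -/
theorem onN_lc : OnN fun _ _ _ f ω _ z => LowCx f ω z :=
  on_lx.mono fun _ _ _ _ _ B _ u => ⟨u.1, u.2.1, u.2.2.low B⟩

end Vale.Agent.P283R.Sl
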