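import Vale.Agent.P283R.Lx.Lm1

/-!
# P283R, block LX: complexity less than two plus the minimal log discrepancy, the scheme side
-/

open Set CategoryTheory AlgebraicGeometry

noncomputable section

namespace Vale.Agent.P283R.Lx.M3

section

open Vale.Agent.P289 Vale.Agent.P289.H219 Vale.Agent.P270L Vale.Agent.P283M.Am
open Vale.Agent.P283M Vale.Agent.P283M.Br

theorem bas {X Z : Stm.Var} {f : X.X ⟶ Z.X} (hf : Stm.Contraction f) {z : Pt Z.X}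
    (hz : IsClosed ({z} : Set (Pt Z.X))) {V : Z.X.Opens} {u : Finset X.K} (bs : Base f V z u) :
    ∃ m : Ideal (Algebra.adjoin ℂ (u : Set X.K)), m.IsMaximal ∧ (∀ g, Nz _ m g →
      ∃ W : Z.X.Opens, IsAffineOpen W ∧ z ∈ W ∧ W ≤ V ∧
        ∀ x ∈ f ⁻¹ᵁ V, x ∈ f ⁻¹ᵁ W ↔ UnAt g x) ∧
      ∀ x ∈ f ⁻¹ᵁ V, f x ≠ z → ∃ g ∈ m, UnAt (g : X.K) x := by
  obtain ⟨-, -, h3, h4⟩ := hf
  obtain ⟨x₀, rfl⟩ := h3.surj z
  have hV := bs.aff
  have hzV := bs.mem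
  have : Nonempty ↑(f ⁻¹ᵁ V) := ⟨⟨x₀, hzV⟩⟩
  have := h4 V
  have hm := hV.primeIdealOf_isMaximal_of_isClosed ⟨_, hzV⟩ hz
  let ψ : Γ(Z.X, V) →+* Algebra.adjoin ℂ (u : Set X.K) :=
    (pl f V).codRestrict _ fun a => bs.con _ fun x hx => (mem_reg.1 (pl_reg f V a) x hx :)
  have hψ : Function.Bijective ψ := ⟨fun a b e => pl_inj f V (congrArg Subtype.val e), fun a => by
    obtain ⟨b, hb⟩ := exists_pl f V (g := a.1)
      (mem_reg.2 fun x hx => (reg_adjoin (fun c hc => bs.reg c hc x hx) a.2 :))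
    exact ⟨b, Subtype.ext hb⟩⟩
  let e := RingEquiv.ofBijective ψ hψ
  refine ⟨(hV.primeIdealOf ⟨_, hzV⟩).asIdeal.comap e.symm,
    Ideal.comap_isMaximal_of_surjective _ e.symm.surjective, fun g ⟨hg, k⟩ => ?_,
    fun x hx ne => ?_⟩
  · have eg : pl f V (e.symm ⟨g, hg⟩) = g := congrArg Subtype.val (e.apply_symm_apply ⟨g, hg⟩)
    refine ⟨Z.X.basicOpen (e.symm ⟨g, hg⟩), hV.basicOpen _, ?_, Z.X.basicOpen_le _,
      fun x hx => ?_⟩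
    · rw [Scheme.mem_basicOpen _ _ _ hzV]
      by_contra h5
      exact k ((mem_primeIdealOf hV _ hzV _).2 h5)
    · have h6 := (un_pl (f := f) (V := V) hx (e.symm ⟨g, hg⟩)).symm
      rw [eg] at h6
      exact h6
  · have hx : f x ∈ V := hx
    have : ¬ (hV.primeIdealOf ⟨_, hzV⟩).asIdeal ≤ (hV.primeIdealOf ⟨_, hx⟩).asIdeal := fun le =>
      ne (by
        have e := PrimeSpectrum.ext (hm.eq_of_le (hV.primeIdealOf ⟨_, hx⟩).isPrime.ne_top le)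
        have := congrArg hV.fromSpec e
        rw [hV.fromSpec_primeIdealOf, hV.fromSpec_primeIdealOf] at this
        exact this.symm)
    obtain ⟨a, a1, a2⟩ := SetLike.not_le_iff_exists.1 this
    refine ⟨e a, by simpa using a1, (un_pl (f := f) (V := V) hx a).2 ?_⟩
    rw [Scheme.mem_basicOpen _ _ _ hx]
    by_contra h5
    exact a2 ((mem_primeIdealOf hV _ hx _).2 h5)

end

open Vale.Agent.P289 (Pt St toRat DForm dimension)
open Vale.Agent.P287D Vale.Agent.P283M.Stm Vale.Agent.P283M.Stm.Var Vale.Agent.P297Z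
open Vale.Agent.P283M Vale.Agent.P283M.Br Vale.Agent.P283R.Sch Vale.Agent.P283R.Cox

variable {X Z : Var} {n k : ℕ} {f : X.X ⟶ Z.X} {z : Pt Z.X} {V W : Z.X.Opens} {u : Finset X.K}
  {Λ : BD X.K}

theorem core {ε β : ℝ} {ω : DForm ℂ X.K (n + 1)} {B L : X.QDiv} {μ ρ r q : ℕ} {φ : X.K}
    {S : Finset X.PrimeDiv} {D' : Fin ρ → X.PrimeDiv →₀ ℤ} 
    (hdim : dimension X.str = (n + 1 : ℕ)) (hω : ω.Nonzero) (hB : Pair (ε ≤ ·) ⊤ ω B)
    (hf : Contraction f) (hF : FanoType f ω) (hn : NefOver f (-logCan ω B))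
    (hz : IsClosed ({z} : Set (Pt Z.X))) (hV : IsAffineOpen V) (zV : z ∈ V)
    (hb : ∀ u, Base f V z u → ∃ m : Ideal (Algebra.adjoin ℂ (u : Set X.K)), m.IsMaximal ∧
      (∀ g, Nz _ m g → ∃ W : Z.X.Opens, IsAffineOpen W ∧ z ∈ W ∧ W ≤ V ∧
        ∀ x ∈ f ⁻¹ᵁ V, x ∈ f ⁻¹ᵁ W ↔ UnAt g x) ∧
      ∀ x ∈ f ⁻¹ᵁ V, Pt.map f x ≠ z → ∃ g ∈ m, UnAt (g : X.K) x)
    (ne : ∃ x ∈ f ⁻¹ᵁ V, Pt.map f x ≠ z) (β0 : 0 ≤ β) (β1 : β ≤ 1)
    (hm : ∀ h, h ≠ 0 → Br.Frm ω h → ∀ (Q : Pl X.K) (x : Pt X.X), x ∈ f ⁻¹ᵁ V → Dom Q.ring x →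
      Pt.map f x = z → β < 1 + cn X.K (n + 1) Q - (Q.ord (φ / h ^ μ) : ℝ) / μ)
    (ho : ∀ h, h ≠ 0 → Br.Frm ω h → ∀ (Q : Pl X.K) (x : Pt X.X), x ∈ f ⁻¹ᵁ V → Dom Q.ring x →
      0 ≤ 1 + cn X.K (n + 1) Q - (Q.ord (φ / h ^ μ) : ℝ) / μ)
    (hL : ∀ E : X.PrimeDiv, E.1 ∈ f ⁻¹ᵁ V → 0 ≤ L E) (μ0 : 0 < μ)
    (hφ : ∀ x ∈ f ⁻¹ᵁ V, LocalEq (logCan ω L) μ φ x) (r0 : 0 < r)
    (hS : ∀ E ∈ S, Pt.map f E.1 ⤳ z ∧ InSpan (f ⁻¹ᵁ V) D' (Finsupp.single E (r : ℚ)))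
    (hK' : InSpan (f ⁻¹ᵁ V) D' fun E => r * logCan ω 0 E)
    (hB' : InSpan (f ⁻¹ᵁ V) D' fun E => r * B E)
    (lt : ((n + 1 : ℕ) + ρ : ℝ) ≤ 2 + β + (∑ E ∈ S, L E : ℚ))
    (hq : ∀ E, ∃ m : ℤ, q * B E = m)
    (hq' : ∀ q' : ℕ, (∀ E, ∃ m : ℤ, q' * B E = m) → q ∣ q') :
    ∃ (k N : ℕ) (W : Z.X.Opens) (D : Fin k → X.PrimeDiv →₀ ℤ), N ≤ k + (2 * (n + 1) + 3) ∧
      IsAffineOpen W ∧ z ∈ W ∧ (Sl.GradedGen N fun m => {φ : X.K | φ ≠ 0 →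
        ∀ E : X.PrimeDiv, E.1 ∈ f ⁻¹ᵁ W → 0 ≤ ord φ E + ∑ i, m i * D i E}) ∧
      (∀ q : ℕ, (∀ E, ∃ m : ℤ, q * B E = m) →
        InSpan (f ⁻¹ᵁ W) D fun E => q * logCan ω B E) ∧ InSpan (f ⁻¹ᵁ W) D (logCan ω 0) := by
  classical
  have hK := ffd X _ hdim
  obtain ⟨j, j0, fr⟩ := frm X _ hK ω hω
  choose c hc using hq
  let T : Fin S.card → X.PrimeDiv := fun i => S.equivFin.symm i
  have TS : ∀ i, T i ∈ S := fun i => (S.equivFin.symm i).2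
  have sT : ∀ g : X.PrimeDiv → ℚ, ∑ i, g (T i) = ∑ E ∈ S, g E := fun g =>
    (S.equivFin.symm.sum_comp fun E => g E).trans (S.sum_coe_sort g)
  let D₀ : X.PrimeDiv →₀ ℤ := Finsupp.ofSupportFinite _ (P283R.Br.form_fin hK fr)
  let D₁ : X.PrimeDiv →₀ ℤ := Finsupp.ofSupportFinite c (B.support.finite_toSet.subset fun E e =>
    Finsupp.mem_support_iff.2 fun z => e (by simpa [z] using (hc E).symm))
  have d0 : ∀ E, D₀ E = formOrd ω (RingEquiv.refl X.K) E := fun _ => rfl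
  have d1 : ∀ E, D₁ E = c E := fun _ => rfl
  let D : Fin (S.card + 1 + 1) → X.PrimeDiv →₀ ℤ :=
    Fin.cons D₀ (Fin.cons D₁ fun i => .single (T i) 1)
  have o : ∀ E : X.PrimeDiv, ord 1 E = 0 := fun E =>
    let ⟨P, _, w⟩ := pl_of plc E; (w 1).trans (Pl.ord_one _)
  have e : ∀ (x y : ℤ) E, ∑ i, (Fin.cons x (Fin.cons y 0) : Fin (S.card + 1 + 1) → ℤ) i * D i E =
      x * formOrd ω (RingEquiv.refl X.K) E + y * c E := fun x y E => by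
    simp only [D, Fin.sum_univ_succ, Fin.cons_zero, Fin.cons_succ, Pi.zero_apply, zero_mul,
      Finset.sum_const_zero, add_zero, d0, d1]
  have h2 : ∀ W, InSpan W D (logCan ω 0) := fun W =>
    ⟨Fin.cons 1 (Fin.cons 0 0), 1, one_ne_zero, fun E _ => by
      rw [o, e, logCan]
      simp⟩
  have h3 : InSpan (f ⁻¹ᵁ V) D fun E => q * B E :=
    ⟨Fin.cons 0 (Fin.cons 1 0), 1, one_ne_zero, fun E _ => by
      rw [o, e]
      simpa using hc E⟩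
  obtain ⟨u, bs⟩ := basV hf hz hV zV
  obtain ⟨Λ, Γ, Γ', dt, on, b, b', nf, -⟩ := dataW hK hω hB hf hF bs
  obtain ⟨N, h1⟩ := schU Cx.ut hdim hω hf hF hz hV zV D
  obtain ⟨s, a, π, ci⟩ := cg_of bs on h1
  have s1 : Cox.Sp n u Λ _ (cn X.K (n + 1)) := sp_of bs on (h2 _) j0 fun P E _ dm => by
    rw [← fr X _ E P (is_of_dom dm) (ord_eq dm), logCan]
    simp
  have s2 : Cox.Sp n u Λ _ ((q : ℝ) • -dsc (n + 1) Γ) :=
    sp_of bs on h3 one_ne_zero fun P E c dm => by simp [b' P E c dm]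
  have s3 : ∀ P, Ov u P → On n Λ P → dsc (n + 1) Γ P ≤ 0 :=
    (all_iff bs on (p := fun E => 0 ≤ B E) fun P E c dm => by
      rw [b' P E c dm, neg_nonpos, Rat.cast_nonneg]).1 fun E _ => hB.1 E trivial
  obtain ⟨s, a, π, h, s0⟩ := Cx.Gn.shift ci
  have x := Cx.Gn.coxY Cx.big dt h s1 s0
  obtain ⟨h₁, e₁, e'⟩ := Cx.Ad.eqv s1
  obtain ⟨g₁, b₁, e''⟩ := Cx.Ad.eqv s2
  obtain ⟨y, Δ, hy, hcn⟩ := Cb.exists_cn dt.ff
  have Y : Cx.Dy n q ε u Λ Γ Γ' y _ s a h₁ g₁ e₁ b₁ := ⟨dt, ⟨Δ, hy⟩, hcn, x, hcn ▸ e', e'',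
    fun P t => s3 P t.1 t.2, b, fun _ => Br.klr dt dt.dn.neg (nf hn)⟩
  obtain ⟨m, mx, bas, sep⟩ := hb u bs
  have nz : ∀ g, Nz _ m g → g ≠ 0 := fun g ⟨_, w⟩ g0 => w (by
    subst g0
    exact m.zero_mem)
  have TW : ∀ i (W : Z.X.Opens), z ∈ W → (T i).1 ∈ f ⁻¹ᵁ W := fun i W zW =>
    (hS _ (TS i)).1.mem_open W.isOpen zW
  obtain ⟨x₀, hx₀, -⟩ := bs.ctr ⊤ (fun _ => trivial) fun _ _ => trivial
  have φ0 := (hφ x₀ hx₀).1
  have dp : ∀ (i : Fin S.card) (P : Pl X.K), (Pi.single i.succ.succ (1 : ℤ) ⬝ᵥ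
      fun i => up (D i) P) = up (.single (T i) 1) P := fun i P => by
    rw [single_dotProduct, one_mul]
    rfl
  have lc : Lc u y (Cx.Tt n u Λ) (fun P i => up (D i) P) s a m μ (φ / j ^ μ)
      (fun i : Fin S.card => Pi.single i.succ.succ 1) fun i => (L (T i) : ℝ) := by
    refine ⟨μ0, div_ne_zero φ0 (pow_ne_zero _ j0), fun Q hQ => ?_,
      fun i => Rat.cast_nonneg.2 (hL _ (TW i V zV)), fun i => ⟨?_, fun ψ hψ w => ?_⟩,
      fun P t => ?_⟩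
    · obtain ⟨x, hx, dm⟩ := bs.ctr Q.ring Q.con hQ
      have := ho j j0 fr Q x hx dm
      rwa [hcn] at this
    · refine (x.sec _ _ one_ne_zero).2 fun P t => ?_
      obtain ⟨x, hx, dm⟩ := bs.ctr P.ring P.con t.1
      obtain ⟨E, rfl⟩ : ∃ E : X.PrimeDiv, E.1 = x := ⟨⟨x, (on P x hx dm).1 t.2⟩, rfl⟩
      rw [dp, up_eq _ dm, Pl.ord_one, Finsupp.single_apply]
      split_ifs <;> simp
    · rw [one_mul] at w
      obtain ⟨W, -, zW, -, hW⟩ := bas ψ w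
      obtain ⟨P, is, -⟩ := pl_of plc (T i)
      have c := TW i V zV
      have := (x.sec _ _ (nz _ w)).1 hψ P ⟨fun a ha => (is.dom a (bs.reg a ha _ c)).1,
        (on P _ c is.dom).2 (T i).2⟩
      rw [neg_dotProduct, dp, up_eq _ is.dom, is.dom.ord ((hW _ c).1 (TW i W zW)),
        Finsupp.single_eq_same] at this
      omega
    · obtain ⟨x, hx, dm⟩ := bs.ctr P.ring P.con t.1
      obtain ⟨E, rfl⟩ : ∃ E : X.PrimeDiv, E.1 = x := ⟨⟨x, (on P x hx dm).1 t.2⟩, rfl⟩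
      have k1 := fr X _ E P (is_of_dom dm) (ord_eq dm)
      have k2 := (hφ _ hx).2 E (specializes_refl _)
      rw [ord_eq dm, logCan] at k2
      have k3 : ∑ i, L (T i) * (Finsupp.single (T i) (1 : ℤ) E : ℤ) ≤ L E := by
        rw [sT fun E' => L E' * (Finsupp.single E' (1 : ℤ) E : ℤ)]
        simp only [Finsupp.single_apply, Int.cast_ite, Int.cast_one, Int.cast_zero, mul_ite,
          mul_one, mul_zero, Finset.sum_ite_eq']
        split_ifs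
        exacts [le_rfl, hL E hx]
      have k4 : (μ : ℝ) ≠ 0 := Nat.cast_ne_zero.2 μ0.ne'
      simp only [dp]
      simp only [up_eq _ dm]
      rw [Pl.ord_div _ φ0 (pow_ne_zero _ j0), Pl.ord_pow, ← hcn]
      have k2' := congrArg (Rat.cast : ℚ → ℝ) k2
      have k3' := (Rat.cast_le (K := ℝ)).2 k3
      push_cast at k2' k3' ⊢
      refine k3'.trans_eq ?_
      rw [k2', k1]
      field_simp
      ring
  obtain ⟨N', s', a', γ, le, hγ, H⟩ := tier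
    (D' := fun P i => up (D' i) P) (by omega) Y mx lc r0
    (Fin.cases (span_of bs on hK' 1 r D₀ fun E => by simp [logCan, d0])
      (Fin.cases (span_of bs on hB' q r D₁ fun E => by rw [mul_left_comm, hc, d1])
        fun i => span_of bs on (hS _ (TS i)).2 1 r (.single (T i) 1) fun E => by
          simp only [Finsupp.single_apply]
          split_ifs <;> simp))
    β0 β1 (by
      obtain ⟨x, hx, e⟩ := ne
      obtain ⟨g, g1, g2⟩ := sep x hx e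
      exact ⟨g, g1, fun z => g2.1 (by rw [z]; rfl)⟩) (fun Q hQ h => by
      obtain ⟨x, hx, dm⟩ := bs.ctr Q.ring Q.con hQ
      have := hm j j0 fr Q x hx dm (by_contra fun e => by
        obtain ⟨g, g1, g2⟩ := sep x hx e
        exact (h g g1 fun z => g2.1 (by rw [z]; rfl)).ne' (dm.ord g2))
      rwa [hcn] at this)
    (by rw [← sT] at lt; exact_mod_cast lt)
  obtain ⟨W, hW, zW, WV, hγ'⟩ := bas γ hγ
  refine ⟨_, N', W, D, le, hW, zW, gen_W bs on D (nz _ hγ) WV hγ' H, fun q' hq => ?_, h2 _⟩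
  obtain ⟨w, rfl⟩ := hq' q' hq
  refine ⟨Fin.cons (q * w) (Fin.cons w 0), 1, one_ne_zero, fun E _ => ?_⟩
  rw [o, e]
  simp only [logCan]
  push_cast
  rw [← hc]
  ring

end Vale.Agent.P283R.Lx.M3
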