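import Vale.Agent.P283R.Sl.Lm
import Vale.Agent.P283R.Lx.Lm2
import Vale.Agent.P283R.Lx.Lc

/-!
# P283R, block LX: complexity less than two plus the minimal log discrepancy
-/

open CategoryTheory AlgebraicGeometry

namespace Vale.Agent.P283R.Sl

open Var Lx.C23 Vale.Agent.P287D Vale.Agent.P297Z

variable {X Z : Var} {d : ℕ} {f : X.X ⟶ Z.X} {ω : X.Form d} {z : Pt Z.X}

theorem LowCx.mld (h : LowCx f ω z) : MldCx f ω z :=
  let ⟨V, Λ, m, φ, S, ρ, D, zV, pr, m0, hφ, hS, cl, lt⟩ := h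
  ⟨V, Λ, m, φ, S, ρ, D, _, zV, pr, m0, hφ, hS, cl, rfl, .inl (by linarith)⟩

/-- the membership -/
theorem MldCx.gen (h : MldCx f ω z) {ε : ℝ} {B : X.QDiv} (hd : 1 ≤ d) (hε : 0 < ε)
    (hdim : dimension X.str = d) (hω : ω.Nonzero) (hB : Pair (ε ≤ ·) (all X.X) ω B)
    (hf : Contraction f) (hF : FanoType f ω) (hn : NefOver f (-logCan ω B)) (hz : z.Closed) :
    Generated (2 * d + 3) f ω B z := by
  obtain ⟨V, Λ, m, φ, S, ρ, D, c, zV, pr, m0, hφ, hS, cl, hc, lt⟩ := h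
  by_cases c2 : c < 2
  · exact Lx.mem d ε X Z f ω B z hd hε hdim hω hB hf hF hn hz
      (LowCx.low ⟨V, Λ, m, φ, S, ρ, D, zV, pr, m0, hφ, hS, cl, by linarith⟩ B)
  obtain ⟨c3, gn, ml⟩ := lt.resolve_left c2
  have sg : ∀ (E : X.PrimeDiv) (r : ℕ), QDiv.coeff (.single E (r : ℚ)) =
      fun E' => r * QDiv.coeff (.single E 1) E' := fun E r => funext fun E' => by
    by_cases e : E = E'
    · subst e
      simp
    · simp [Finsupp.single_eq_of_ne' e]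
  have one : ∀ E, Lx.C23.Lo f z D (QDiv.coeff (.single E 1)) := fun E =>
    let ⟨U, r, u, r0, a⟩ := cl E
    ⟨U, r, u, r0, sg E r ▸ a⟩
  obtain ⟨U₁, r₁, u₁, p₁, a₁⟩ := lo_all one B
  obtain ⟨U₂, r₂, u₂, p₂, a₂⟩ := lo_all one Λ
  choose U r u p a using one
  have zi : z ∈ S.inf U := by
    refine Finset.inf_induction (p := fun O : Z.X.Opens => z ∈ O) trivial
      (fun _ a _ b => ⟨a, b⟩) fun E _ => u E
  obtain ⟨W, hW, zW, le⟩ := exists_isAffineOpen_mem_and_subset (X := Z.X) (x := z)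
    (U := V ⊓ U₁ ⊓ U₂ ⊓ S.inf U) ⟨⟨⟨zV, u₁⟩, u₂⟩, zi⟩
  have le : W ≤ V ⊓ U₁ ⊓ U₂ ⊓ S.inf U := le
  simp only [le_inf_iff, Finset.le_inf_iff] at le
  obtain ⟨⟨⟨l0, l1⟩, l2⟩, l3⟩ := le
  have hK : InSpan (pre f W) D fun E => (m * r₂ : ℕ) * logCan ω 0 E := by
    by_cases φ0 : φ = 0
    · exact mono zero le_rfl fun E c => ((hφ E.1 (l0 c)).1 φ0).elim
    · refine mono (add (dv φ0) (zsm (up a₂ l2 dvd_rfl) (-m)) r₂ fun _ => rfl) le_rfl fun E c => ?_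
      rw [(hφ E.1 (l0 c)).2 E specializes_rfl]
      simp only [logCan, Finsupp.zero_apply]
      push_cast
      ring
  obtain ⟨n, rfl⟩ : ∃ n, d = n + 1 := ⟨d - 1, by omega⟩
  obtain ⟨q, -, hq, hq'⟩ := Lx.least' B
  have pW : Pair (0 ≤ ·) (pre f W) ω Λ :=
    ⟨fun y c => pr.1 y (l0 c), fun x c => pr.2.1 x (l0 c), fun M E c => pr.2.2 M E (l0 c)⟩
  have hS' : ∀ E ∈ S, InSpan (pre f W) D
      (QDiv.coeff (.single E ((m * r₂ * r₁ * ∏ E ∈ S, r E : ℕ) : ℚ))) := fun E e => by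
    rw [sg]
    exact up (a E) (l3 E e) ((Finset.dvd_prod_of_mem r e).mul_left _)
  obtain ⟨x₀, e₀⟩ := hf.2.2.1.surj (generic Z.X)
  obtain ⟨k, N, W', D', a, b, c, g, s, t⟩ := Lx.M3.core (X := X.o) (Z := Z.o) (β := c - 2)
    (r := m * r₂ * r₁ * ∏ E ∈ S, r E) hdim hω ((pair_iff _ _ ω B).1 hB) hf
    ((fanoType_iff f ω).1 hF) ((nefOver_iff f _).1 hn) hz hW zW
    (fun u bs => Lx.M3.bas (X := X.o) (Z := Z.o) hf hz bs)
    ⟨x₀, show f x₀ ∈ W from e₀ ▸ (genericPoint_specializes z).mem_open W.isOpen zW,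
      fun e => gn (e.symm.trans e₀)⟩
    (sub_nonneg.2 (by exact_mod_cast not_lt.1 c2)) (by
      have : (c : ℝ) ≤ 3 := by exact_mod_cast c3
      linarith)
    (fun h h0 fr Q y hy hQ e => by
      have m1 : (m : ℝ) ≠ 0 := Nat.cast_ne_zero.2 m0.ne'
      obtain ⟨M, E, rfl, e'⟩ := P283M.Br.mod X.o Q y hQ
      have o := (P283M.Br.plc X.o M.Y M.pull (P283M.Br.mdc X.o M).1 E).2 Q e'
      have : (c : ℝ) - 2 < 1 + (P283M.Stm.Var.formOrd ω M.pull E -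
        (P283M.Stm.Var.ord (M.pull φ) E : ℝ) / m) := ml (Model.nw M) E e
      rw [fr _ _ E Q e' o, o] at this
      rw [Pl.ord_div _ (hφ _ (l0 hy)).1 (pow_ne_zero m h0), Pl.ord_pow]
      push_cast
      have k : ((Q.ord φ : ℝ) - m * Q.ord h) / m = Q.ord φ / m - Q.ord h := by field_simp
      rw [k]
      linarith)
    (fun h h0 fr => Lx.ofl _ m X _ ω Λ φ h m0 h0 fr pW fun x c => hφ x (l0 c)) pW.1 m0
    (fun x c => hφ x (l0 c))
    (by have := Finset.prod_pos fun E (_ : E ∈ S) => p E; positivity)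
    (fun E e => ⟨hS E e, hS' E e⟩)
    (up hK le_rfl ((dvd_mul_right _ _).mul_right _)) (up a₁ l1 ((dvd_mul_left _ _).mul_right _))
    (by
      have := congrArg (Rat.cast : ℚ → ℝ) hc
      rw [Rat.cast_sub, Rat.cast_add, Rat.cast_natCast, Rat.cast_natCast] at this
      exact (eq_add_of_sub_eq this.symm).le.trans_eq (congrArg (· + _) (by ring))) hq hq'
  exact ⟨k, N, W', D', a, b, c, g, s, .inr t⟩

/-- bounded klt complements for complexity less than two plus the minimal log discrepancy -/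
theorem onN_lm : OnN fun _ _ _ f ω _ z => MldCx f ω z := by
  intro d hd ε hε R hR
  obtain ⟨n, hn, H⟩ := on_gen' (2 * d + 3) d hd ε hε R hR
  exact ⟨n, hn, fun X Z f ω B z a b c e s t u => H X Z f ω B z a b c e s t
    ⟨u.1, u.2.1, u.2.2.gen hd hε a b c s u.1 u.2.1 t⟩⟩

end Vale.Agent.P283R.Sl
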