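import Vale.Agent.P283R.Lx.St

/-!
# P283R, block LX: a finite projection for which the point is alone in its fibre
-/

open Set

noncomputable section

namespace Vale.Agent.P283R.Lx

open Vale.Agent.P287D Vale.Agent.P283M

namespace N84

variable {A : Type} [CommRing A] [Algebra ℂ A]

/-- the values at a closed point -/
theorem res [Algebra.FiniteType ℂ A] (m : Ideal A) (hm : m.IsMaximal) (x : A) :
    ∃ c : ℂ, x - algebraMap ℂ A c ∈ m := by
  let _ := Ideal.Quotient.field m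
  have : Module.Finite ℂ (A ⧸ m) := finite_of_finite_type_of_isJacobsonRing ℂ (A ⧸ m)
  obtain ⟨c, hc⟩ := (IsAlgClosed.algebraMap_bijective_of_isIntegral (k := ℂ)
    (K := A ⧸ m)).2 (Ideal.Quotient.mk m x)
  exact ⟨c, Ideal.Quotient.eq.1 hc.symm⟩

/-- one more function removes the other points of a finite fibre -/
theorem sep (J m : Ideal A) [Module.Finite ℂ (A ⧸ J)] :
    ∃ h ∈ m, ∃ n : ℕ, ∀ x ∈ m ^ n, (h + 1) * x ∈ J := by
  have : IsArtinianRing (A ⧸ J) := IsArtinianRing.of_finite ℂ (A ⧸ J)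
  obtain ⟨n, hn⟩ := IsArtinian.monotone_stabilizes (R := A ⧸ J) (M := A ⧸ J)
    ⟨fun n => OrderDual.toDual (m.map (Ideal.Quotient.mk J) ^ n),
      fun a b h => Ideal.pow_le_pow_right h⟩
  have e : m.map (Ideal.Quotient.mk J) ^ n = m.map (Ideal.Quotient.mk J) ^ (n + 1) :=
    hn (n + 1) n.le_succ
  obtain ⟨r, r1, r2⟩ := Submodule.exists_sub_one_mem_and_smul_eq_zero_of_fg_of_le_smul
    (m.map (Ideal.Quotient.mk J)) (m.map (Ideal.Quotient.mk J) ^ n) (IsNoetherian.noetherian _)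
    (by rw [smul_eq_mul, ← pow_succ', ← e])
  obtain ⟨h, h1, h2⟩ := (Ideal.mem_map_iff_of_surjective _ Ideal.Quotient.mk_surjective).1 r1
  refine ⟨h, h1, n, fun x hx => Ideal.Quotient.eq_zero_iff_mem.1 ?_⟩
  have k := r2 (Ideal.Quotient.mk J x) (by
    rw [← Ideal.map_pow]; exact Ideal.mem_map_of_mem _ hx)
  rw [map_mul, map_add, map_one, h2, sub_add_cancel]
  exact k

/-- the statement for a ring -/
theorem core [Algebra.FiniteType ℂ A] (d : ℕ) (m : Ideal A) (hm : m.IsMaximal)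
    (hd : ∀ (s : ℕ) (z : Fin s → A), AlgebraicIndependent ℂ z → s ≤ d) :
    ∃ τ : Fin (d + 1) → A, (∀ i, τ i ∈ m) ∧
      Module.Finite (Algebra.adjoin ℂ (range τ)) A ∧ ∃ n : ℕ, m ^ n ≤ Ideal.span (range τ) := by
  have : Nontrivial A := ⟨⟨0, 1, fun c => hm.ne_top ((Ideal.eq_top_iff_one m).2 (c ▸ m.zero_mem))⟩⟩
  obtain ⟨s, φ, inj, int⟩ := exists_integral_inj_algHom_of_fg ℂ A
  have hs : s ≤ d := hd s (fun i => φ (MvPolynomial.X i)) (by
    rw [AlgebraicIndependent, show MvPolynomial.aeval (fun i => φ (MvPolynomial.X i)) = φ from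
      MvPolynomial.algHom_ext fun i => by simp]
    exact inj)
  choose c hc using fun i : Fin s => res m hm (φ (MvPolynomial.X i))
  obtain ⟨z, hz⟩ : ∃ z : Fin s → A, ∀ i, z i = φ (MvPolynomial.X i) - algebraMap ℂ A (c i) :=
    ⟨_, fun _ => rfl⟩
  have hi : ∀ a : A, ∃ G : Polynomial (MvPolynomial (Fin s) ℂ), G.Monic ∧
      G.eval₂ (MvPolynomial.aeval z : MvPolynomial (Fin s) ℂ →ₐ[ℂ] A).toRingHom a = 0 := fun a => by
    obtain ⟨G, a1, a2⟩ := int a
    refine ⟨G.map (MvPolynomial.aeval (R := ℂ) fun i => (MvPolynomial.X i + MvPolynomial.C (c i) :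
      MvPolynomial (Fin s) ℂ)).toRingHom, a1.map _, ?_⟩
    have e : (MvPolynomial.aeval z : MvPolynomial (Fin s) ℂ →ₐ[ℂ] A).comp
        (MvPolynomial.aeval (R := ℂ) fun i => (MvPolynomial.X i + MvPolynomial.C (c i) :
          MvPolynomial (Fin s) ℂ)) = φ := MvPolynomial.algHom_ext fun i => by simp [hz]
    rw [Polynomial.eval₂_map, ← a2, ← e]
    rfl
  have hf : Module.Finite ℂ (A ⧸ Ideal.span (range z)) := by
    have : Algebra.IsIntegral ℂ (A ⧸ Ideal.span (range z)) := ⟨fun b => by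
      obtain ⟨a, rfl⟩ := Ideal.Quotient.mk_surjective b
      obtain ⟨G, a1, a2⟩ := hi a
      refine ⟨G.map (MvPolynomial.aeval (R := ℂ) fun _ => (0 : ℂ)).toRingHom, a1.map _, ?_⟩
      have e : (Algebra.ofId ℂ (A ⧸ Ideal.span (range z))).comp
          (MvPolynomial.aeval (R := ℂ) fun _ : Fin s => (0 : ℂ)) =
          (Ideal.Quotient.mkₐ ℂ (Ideal.span (range z))).comp (MvPolynomial.aeval z) :=
        MvPolynomial.algHom_ext fun i => by
          simp only [AlgHom.comp_apply, MvPolynomial.aeval_X, map_zero]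
          exact (Ideal.Quotient.eq_zero_iff_mem.2 (Ideal.subset_span (mem_range_self i))).symm
      have k := congrArg (Ideal.Quotient.mk (Ideal.span (range z))) a2
      rw [Polynomial.hom_eval₂, map_zero] at k
      rw [Polynomial.eval₂_map, ← k]
      exact congrArg (fun ψ : MvPolynomial (Fin s) ℂ →ₐ[ℂ] A ⧸ Ideal.span (range z) =>
        G.eval₂ ψ.toRingHom (Ideal.Quotient.mk _ a)) e⟩
    exact Algebra.IsIntegral.finite
  obtain ⟨h, h1, n, hn⟩ := sep (Ideal.span (range z)) m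
  obtain ⟨τ, t0, t1, t2⟩ : ∃ τ : Fin (d + 1) → A, τ 0 = h ∧ (∀ i, τ i ∈ m) ∧
      range z ⊆ range τ := by
    refine ⟨Fin.cons h fun j => if hj : j.1 < s then z ⟨j, hj⟩ else 0, rfl, fun i => ?_, ?_⟩
    · refine Fin.cases h1 (fun j => ?_) i
      rw [Fin.cons_succ]
      split_ifs with hj
      · rw [hz]; exact hc _
      · exact m.zero_mem
    · rintro _ ⟨i, rfl⟩
      exact ⟨Fin.succ ⟨i, i.2.trans_le hs⟩, by rw [Fin.cons_succ, dif_pos i.2]⟩
  refine ⟨τ, t1, ?_, n, fun x hx => ?_⟩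
  · have : Algebra.FiniteType (Algebra.adjoin ℂ (range τ)) A :=
      Algebra.FiniteType.of_restrictScalars_finiteType ℂ _ _
    have : Algebra.IsIntegral (Algebra.adjoin ℂ (range τ)) A := ⟨fun a => by
      obtain ⟨G, a1, a2⟩ := hi a
      refine ⟨G.map (MvPolynomial.aeval (R := ℂ) fun i => (⟨z i, Algebra.subset_adjoin
        (t2 ⟨i, rfl⟩)⟩ : Algebra.adjoin ℂ (range τ))).toRingHom, a1.map _, ?_⟩
      have e : (Algebra.adjoin ℂ (range τ)).val.comp (MvPolynomial.aeval (R := ℂ)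
          fun i => (⟨z i, Algebra.subset_adjoin (t2 ⟨i, rfl⟩)⟩ : Algebra.adjoin ℂ (range τ))) =
          MvPolynomial.aeval z := MvPolynomial.algHom_ext fun i => by simp
      rw [Polynomial.eval₂_map, ← a2, ← e]
      rfl⟩
    exact Algebra.IsIntegral.finite
  · have k : x = (h + 1) * x - τ 0 * x := by rw [t0]; ring
    rw [k]
    exact sub_mem (Ideal.span_mono t2 (hn x hx))
      (Ideal.mul_mem_right _ _ (Ideal.subset_span ⟨0, rfl⟩))

end N84

/-- **NOE** -/
theorem noe : NOE := fun K _ _ d A m hK hA hm => by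
  have : Algebra.FiniteType ℂ A := (Subalgebra.fg_iff_finiteType A).1 hA
  refine N84.core d m hm fun s z hz => ?_
  have k := (hz.map' (f := A.val) Subtype.val_injective).cardinalMk_le_trdeg
  rw [Bm.trdeg_eq hK, Cardinal.mk_fin] at k
  exact_mod_cast k

end Vale.Agent.P283R.Lx
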