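import Vale.Agent.P283R.Lx.St
import Vale.Agent.P283R.Cx.Bas

/-!
# P283R, block LX: the homogeneous parts are finite modules
-/

open Set

noncomputable section

namespace Vale.Agent.P283R.Lx

open Vale.Agent.P283R.Cx

/-- **FIM** -/
theorem fim40 : FIM := by
  intro K _ _ k N s a e
  have fin : {c : Fin N → ℕ | Minimal (fun c => dg a c = e) c}.Finite :=
    WellQuasiOrderedLE.finite_of_isAntichain fun c hc c' hc' ne le =>
      ne (le_antisymm le (hc'.2 hc.1 le))
  obtain ⟨n, v, hv⟩ := fin.fin_param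
  have hm : ∀ i, dg a (v i) = e := fun i => (hv.2.le ⟨i, rfl⟩ :
    Minimal (fun c => dg a c = e) (v i)).1
  refine ⟨n, fun i => ∏ j, s j ^ v i j, fun i => Submodule.subset_span ⟨_, hm i, rfl⟩,
    fun x hx => ?_⟩
  induction hx using Submodule.span_induction with
  | mem x hx =>
    obtain ⟨c, hc, rfl⟩ := hx
    obtain ⟨b, le, hb⟩ := exists_minimal_le_of_wellFoundedLT (fun c => dg a c = e) c hc
    obtain ⟨i, rfl⟩ := hv.2.ge hb
    obtain ⟨w, rfl⟩ := exists_add_of_le le
    have z : dg a w = 0 := by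
      have hc' : dg a (v i + w) = e := hc
      rw [dg_add, hm i] at hc'
      exact add_eq_left.1 hc'
    refine ⟨Pi.single i (∏ j, s j ^ w j), fun l => ?_, ?_⟩
    · by_cases h : l = i
      · subst h
        rw [Pi.single_eq_same]
        exact Submodule.subset_span ⟨_, z, rfl⟩
      · rw [Pi.single_eq_of_ne h]
        exact zero_mem _
    · rw [Finset.sum_eq_single i (fun l _ h => by rw [Pi.single_eq_of_ne h, zero_mul]) (by simp),
        Pi.single_eq_same, ← Finset.prod_mul_distrib]
      exact Finset.prod_congr rfl fun j _ => by rw [Pi.add_apply, pow_add, mul_comm]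
  | zero => exact ⟨0, fun _ => zero_mem _, by simp⟩
  | add x y _ _ hx hy =>
    obtain ⟨c, h1, rfl⟩ := hx
    obtain ⟨c', h2, rfl⟩ := hy
    exact ⟨c + c', fun i => add_mem (h1 i) (h2 i), by
      simp only [Pi.add_apply, add_mul, Finset.sum_add_distrib]⟩
  | smul r x _ hx =>
    obtain ⟨c, h1, rfl⟩ := hx
    exact ⟨r • c, fun i => Submodule.smul_mem _ r (h1 i), by
      simp only [Pi.smul_apply, smul_mul_assoc, Finset.smul_sum]⟩

end Vale.Agent.P283R.Lx
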