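import Vale.Agent.P283R.Lx.St
import Vale.Agent.P283M.Br.Bas

/-!
# P283R, block LX: the ideal of the point
-/

open Set CategoryTheory AlgebraicGeometry
open Vale.Agent.P289 Vale.Agent.P289.H219 Vale.Agent.P270L Vale.Agent.P283M.Am

noncomputable section

namespace Vale.Agent.P283R.Lx

open Vale.Agent.P283M Vale.Agent.P283M.Br

theorem bas0 {X Z : Stm.Var} {f : X.X ⟶ Z.X} (hf : Stm.Contraction f) {z : Pt Z.X}
    (hz : IsClosed ({z} : Set (Pt Z.X))) {V : Z.X.Opens} {u : Finset X.K} (bs : Base f V z u) :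
    ∃ m : Ideal (Algebra.adjoin ℂ (u : Set X.K)), m.IsMaximal ∧ ∀ g, Nz _ m g →
      ∃ W : Z.X.Opens, IsAffineOpen W ∧ z ∈ W ∧ W ≤ V ∧
        ∀ x ∈ f ⁻¹ᵁ V, x ∈ f ⁻¹ᵁ W ↔ UnAt g x := by
  obtain ⟨-, -, h3, h4⟩ := hf
  obtain ⟨x₀, rfl⟩ := h3.surj z
  have hV := bs.aff
  have hzV := bs.mem
  have : Nonempty ↑(f ⁻¹ᵁ V) := ⟨⟨x₀, hzV⟩⟩
  have := h4 V
  have hm := hV.primeIdealOf_isMaximal_of_isClosed ⟨_, hzV⟩ hz
  let ψ : Γ(Z.X, V) →+* Algebra.adjoin ℂ (u : Set X.K) :=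
    (pl f V).codRestrict _ fun a => bs.con _ fun x hx => (mem_reg.1 (pl_reg f V a) x hx :)
  have hψ : Function.Bijective ψ := ⟨fun a b e => pl_inj f V (congrArg Subtype.val e), fun a => by
    obtain ⟨b, hb⟩ := exists_pl f V (g := a.1)
      (mem_reg.2 fun x hx => (reg_adjoin (fun c hc => bs.reg c hc x hx) a.2 :))
    exact ⟨b, Subtype.ext hb⟩⟩
  let e := RingEquiv.ofBijective ψ hψ
  refine ⟨(hV.primeIdealOf ⟨_, hzV⟩).asIdeal.comap e.symm,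
    Ideal.comap_isMaximal_of_surjective _ e.symm.surjective, fun g ⟨hg, k⟩ => ?_⟩
  have eg : pl f V (e.symm ⟨g, hg⟩) = g := congrArg Subtype.val (e.apply_symm_apply ⟨g, hg⟩)
  refine ⟨Z.X.basicOpen (e.symm ⟨g, hg⟩), hV.basicOpen _, ?_, Z.X.basicOpen_le _, fun x hx => ?_⟩
  · rw [Scheme.mem_basicOpen _ _ _ hzV]
    by_contra h5
    exact k ((mem_primeIdealOf hV _ hzV _).2 h5)
  · have h6 := (un_pl (f := f) (V := V) hx (e.symm ⟨g, hg⟩)).symm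
    rw [eg] at h6
    exact h6

/-- **BAS** -/
theorem bas : BAS := fun X Z _ _ _ _ hf hz bs => bas0 (X := X.o) (Z := Z.o) hf hz bs

end Vale.Agent.P283R.Lx
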