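import Vale.Agent.P283R.Lx.St
import Vale.Agent.P283R.Cx.Bas
import Vale.Agent.P283R.Gf.Up
import Mathlib.LinearAlgebra.LinearIndependent.BaseChange

/-!
# P283R, block LX: the conormal space of the closed orbit
-/

open Set

noncomputable section

namespace Vale.Agent.P283R.Lx

open Vale.Agent.P287D Vale.Agent.P283R.Cx

namespace C3

variable {K F : Type} [Field K] [Algebra ℂ K] [Field F] [Algebra ℂ F] [Algebra K F] {k N E : ℕ}

/-- the value at a closed point -/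
theorem chi {S : Subalgebra ℂ F} (hS : S.FG) (p : Ideal S) [p.IsMaximal] :
    ∃ χ : S →ₐ[ℂ] ℂ, ∀ a, χ a = 0 ↔ a ∈ p := by
  have := (Subalgebra.fg_iff_finiteType S).1 hS
  let _ := Ideal.Quotient.field p
  have : Module.Finite ℂ (S ⧸ p) := finite_of_finite_type_of_isJacobsonRing ℂ (S ⧸ p)
  let e := AlgEquiv.ofBijective (Algebra.ofId ℂ (S ⧸ p))
    (IsAlgClosed.algebraMap_bijective_of_isIntegral (k := ℂ) (K := S ⧸ p))
  exact ⟨(e.symm : _ →ₐ[ℂ] ℂ).comp (Ideal.Quotient.mkₐ ℂ p), fun a =>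
    (map_eq_zero_iff _ e.symm.injective).trans Ideal.Quotient.eq_zero_iff_mem⟩

/-- the cotangent space is spanned by the generators -/
theorem cot {S : Subalgebra ℂ F} {p : Ideal S} (hp : p.IsPrime) (χ : S →ₐ[ℂ] ℂ)
    (hχ : ∀ a, χ a = 0 ↔ a ∈ p) (h : Bx.Emd E S p) : ∃ z : Fin E → S, ∀ a ∈ p,
      ∃ γ : Fin E → ℂ, a - ∑ j, γ j • z j ∈ p ^ 2 := by
  obtain ⟨z, zp, hz⟩ := h
  refine ⟨z, fun a ha => ?_⟩
  obtain ⟨c, hc, e⟩ := hz a ha
  choose s u hu ec using hc
  have u0 : ∀ j, χ (u j) ≠ 0 := fun j e => hu j ((hχ _).1 e)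
  refine ⟨fun j => χ (s j) / χ (u j), ?_⟩
  set y := a - ∑ j, (χ (s j) / χ (u j)) • z j with hy
  have yp : y ∈ p := sub_mem ha (sum_mem fun j _ => Submodule.smul_of_tower_mem _ _ (zp j))
  let Q : F → Prop := fun x => ∃ v ∉ p, ∃ q ∈ p ^ 2, (v : F) * x = (q : S)
  have hQ : Q y := by
    have : (y : F) = ∑ j, (c j - algebraMap ℂ F (χ (s j) / χ (u j))) * z j := by
      simp only [hy, sub_mul, Finset.sum_sub_distrib, ← e, ← Algebra.smul_def]
      push_cast
      rfl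
    rw [this]
    refine Finset.sum_induction _ Q ?_ ⟨1, (Ideal.ne_top_iff_one p).1 hp.ne_top, 0, zero_mem _,
      by simp⟩ fun j _ => ⟨u j, hu j, (s j - (χ (s j) / χ (u j)) • u j) * z j, ?_, ?_⟩
    · rintro x x' ⟨v, hv, q, hq, e1⟩ ⟨v', hv', q', hq', e2⟩
      refine ⟨v * v', fun k => (hp.mem_or_mem k).elim hv hv', v' * q + v * q',
        add_mem (Ideal.mul_mem_left _ _ hq) (Ideal.mul_mem_left _ _ hq'), ?_⟩
      push_cast
      rw [← e1, ← e2]
      ring
    · rw [pow_two]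
      refine Ideal.mul_mem_mul ((hχ _).1 ?_) (zp j)
      rw [map_sub, map_smul, smul_eq_mul, div_mul_cancel₀ _ (u0 j), sub_self]
    · have := Gf.ne_of (hu j)
      generalize χ (s j) / χ (u j) = γ
      change _ = ((s j : F) - γ • (u j : F)) * z j
      rw [ec j, Algebra.smul_def]
      field_simp
  obtain ⟨v, hv, q, hq, e1⟩ := hQ
  have v0 : χ v ≠ 0 := fun e => hv ((hχ _).1 e)
  have e2 : v * y = q := Subtype.ext e1
  have m : (v - algebraMap ℂ S (χ v)) * y ∈ p ^ 2 := by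
    rw [pow_two]
    exact Ideal.mul_mem_mul ((hχ _).1 (by simp)) yp
  have : y = (χ v)⁻¹ • (q - (v - algebraMap ℂ S (χ v)) * y) := by
    rw [← e2, sub_mul, sub_sub_cancel, ← Algebra.smul_def, inv_smul_smul₀ v0]
  rw [this]
  exact Submodule.smul_of_tower_mem _ _ (sub_mem hq m)

variable [IsScalarTower ℂ K F] {t : Fin k → F} {s : Fin N → K} {a : Fin N → Fin k → ℤ}

/-- linear maps with given values on the homogeneous elements -/
theorem lin (ht : AlgebraicIndependent K t) {M : Type} [AddCommGroup M] [Module ℂ M]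
    (f : (Fin k → ℤ) → K →ₗ[ℂ] M) : ∃ δ : F →ₗ[ℂ] M, ∀ (φ : K) e, δ (hm t φ e) = f e φ := by
  let h : (Fin k → ℤ) → K →ₗ[ℂ] F := fun e =>
    { toFun := fun φ => hm t φ e
      map_add' := fun φ ψ => hm_add t φ ψ e
      map_smul' := fun c φ => hm_smul t c φ e }
  obtain ⟨g, hg⟩ := (Finsupp.lsum ℂ h).exists_leftInverse_of_injective
    (LinearMap.ker_eq_bot'.2 fun ψ e => lv_inj ht e)
  refine ⟨Finsupp.lsum ℂ f ∘ₗ g, fun φ e => ?_⟩
  have := LinearMap.congr_fun hg (Finsupp.single e φ)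
  rw [LinearMap.comp_apply, Finsupp.lsum_single] at this
  rw [LinearMap.comp_apply]
  exact (congrArg _ this).trans (Finsupp.lsum_single _ _ _ _)

/-- induction on the homogeneous elements -/
theorem ind (ht : ∀ i, t i ≠ 0) {q : Rg s a t → Prop} (h0 : q 0)
    (h1 : ∀ e (φ : K) (x : Rg s a t), φ ∈ Sp s a e → (x : F) = hm t φ e → q x)
    (h2 : ∀ x y, q x → q y → q (x + y)) (x : Rg s a t) : q x := by
  obtain ⟨x, hx⟩ := x
  obtain ⟨ψ, h, rfl⟩ := (mem_Rg_iff ht).1 hx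
  have : (⟨lv t ψ, hx⟩ : Rg s a t) = ∑ e ∈ ψ.support, ⟨hm t (ψ e) e, mem_Rg ht (h e)⟩ :=
    Subtype.ext (by push_cast; rfl)
  rw [this]
  exact Finset.sum_induction _ q h2 h0 fun e _ => h1 e _ _ (h e) rfl

/-- the Euler derivations at a point -/
theorem eul (ht : AlgebraicIndependent K t) (χ : Rg s a t →ₐ[ℂ] ℂ) :
    ∃ δ : F →ₗ[ℂ] Fin k → ℂ, (∀ (φ : K) e (x : Rg s a t), (x : F) = hm t φ e →
      δ x = χ x • algebraMap ℤ ℂ ∘ e) ∧
      ∀ x y : Rg s a t, δ (x * y : Rg s a t) = χ x • δ y + χ y • δ x := by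
  obtain ⟨χ', hχ⟩ := LinearMap.exists_extend (p := (Rg s a t).toSubmodule) χ.toLinearMap
  have c : ∀ x : Rg s a t, χ' x = χ x := fun x => LinearMap.congr_fun hχ x
  obtain ⟨δ, hδ⟩ := lin (F := F) ht fun e => LinearMap.smulRight (χ' ∘ₗ
    { toFun := fun φ => hm t φ e
      map_add' := fun φ ψ => hm_add t φ ψ e
      map_smul' := fun c φ => hm_smul t c φ e }) (algebraMap ℤ ℂ ∘ e)
  have h : ∀ (φ : K) e (x : Rg s a t), (x : F) = hm t φ e → δ x = χ x • algebraMap ℤ ℂ ∘ e :=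
    fun φ e x hx => by rw [← c, hx, hδ]; rfl
  refine ⟨δ, h, fun x y => ?_⟩
  refine ind (q := fun x => δ (x * y : Rg s a t) = χ x • δ y + χ y • δ x) ht.ne_zero (by simp)
    (fun e φ x _ hx => ?_) (fun x x' hx hx' => ?_) x
  · refine ind (q := fun y => δ (x * y : Rg s a t) = χ x • δ y + χ y • δ x) ht.ne_zero (by simp)
      (fun e' ψ y _ hy => ?_) (fun y y' hy hy' => ?_) y
    · rw [h (φ * ψ) (e + e') _ (by rw [hm_mul ht.ne_zero, ← hx, ← hy]; rfl), h φ e _ hx,
        h ψ e' _ hy, map_mul]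
      funext i
      simp
      ring
    · rw [mul_add, map_add]
      push_cast at hy hy' ⊢
      rw [map_add, map_add, hy, hy']
      module
  · rw [add_mul, map_add]
    push_cast at hx hx' ⊢
    rw [map_add, map_add, hx, hx']
    module

end C3

/-- **CNT** -/
theorem cnt : CNT := by
  intro K F _ _ _ _ _ _ d k N t s a A m bs p r E l w o em
  classical
  have := o.max
  have t0 := bs.ext.ind.ne_zero
  obtain ⟨χ, hχ⟩ := C3.chi (S := Rg s a t) (Subalgebra.fg_def.2 ⟨_, finite_range _, rfl⟩) p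
  obtain ⟨z, hz⟩ := C3.cot o.max.isPrime χ hχ em
  obtain ⟨δ, d1, d2⟩ := C3.eul bs.ext.ind χ
  let P : Submodule ℂ F := ((p ^ 2).restrictScalars ℂ).map (Rg s a t).val.toLinearMap
  have dP : P ≤ LinearMap.ker δ := by
    rintro _ ⟨x, hx, rfl⟩
    have hx' : x ∈ p * p := pow_two p ▸ hx
    refine Submodule.mul_induction_on (C := fun x : Rg s a t => δ x = 0) hx' (fun x hx y hy => ?_)
      fun x y hx hy => ?_
    · rw [d2, (hχ _).2 hx, (hχ _).2 hy, zero_smul, zero_smul, add_zero]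
    · push_cast
      rw [map_add, hx, hy, add_zero]
  let W := Submodule.span ℂ (range fun j => P.mkQ (z j))
  have hW : ∀ x ∈ p, P.mkQ (x : Rg s a t) ∈ W := fun x hx => by
    obtain ⟨γ, h⟩ := hz x hx
    have : P.mkQ (x : F) = ∑ j, γ j • P.mkQ (z j) := by
      simp only [← map_smul, ← map_sum]
      exact (Submodule.Quotient.eq P).2 ⟨_, h, by simp⟩
    rw [this]
    exact sum_mem fun j _ => Submodule.smul_mem _ _ (Submodule.subset_span ⟨j, rfl⟩)
  let H : Set (F ⧸ P) := {y | ∃ e, ∃ φ ∈ Ie A m s a e, y = P.mkQ (hm t φ e)}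
  have HW : ∀ y ∈ H, y ∈ W ∧ P.liftQ δ dP y = 0 := by
    rintro _ ⟨e, φ, h, rfl⟩
    have q := o.hom e φ h ⟨_, mem_Rg t0 h.1⟩ rfl
    refine ⟨hW _ q, (d1 φ e ⟨_, mem_Rg t0 h.1⟩ rfl).trans ?_⟩
    rw [(hχ _).2 q, zero_smul]
  have : Module.Finite ℂ W := .span_of_finite ℂ (finite_range _)
  have : Module.Finite ℂ (Submodule.span ℂ H) :=
    Submodule.finiteDimensional_of_le (Submodule.span_le.2 fun y hy => (HW y hy).1)
  obtain ⟨f, f1, f2, f3⟩ := Submodule.exists_fun_fin_finrank_span_eq ℂ (s := H)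
  choose c b hb ef using id f1
  let u : Fin r → Rg s a t := fun j => ⟨_, mem_Rg t0 (o.mem j)⟩
  have up : ∀ j, u j - 1 ∈ p := fun j => o.one j _ rfl
  have du : ∀ j, P.liftQ δ dP (P.mkQ (u j - 1 : Rg s a t)) = algebraMap ℤ ℂ ∘ l j := fun j => by
    have e : χ (u j) = 1 := by simpa [sub_eq_zero] using (hχ _).2 (up j)
    have e1 := d1 1 0 1 (hm_one t).symm
    change δ ((u j : F) - (1 : Rg s a t)) = _
    rw [map_sub, e1, d1 (w j) (l j) _ rfl, e]
    funext i
    simp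
  have li : LinearIndependent ℂ (Sum.elim f fun j => P.mkQ (u j - 1 : Rg s a t)) := by
    refine Fintype.linearIndependent_iff.2 fun γ h => ?_
    rw [Fintype.sum_sum_type] at h
    have h1 := congrArg (P.liftQ δ dP) h
    simp only [map_add, map_sum, map_smul, Sum.elim_inl, Sum.elim_inr, du, (HW _ (f1 _)).2,
      smul_zero, Finset.sum_const_zero, zero_add, map_zero] at h1
    have h2 := Fintype.linearIndependent_iff.1
      ((linearIndependent_algebraMap_comp_iff (S := ℂ)).2 o.ind) _ h1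
    simp only [h2, zero_smul, Finset.sum_const_zero, add_zero, Sum.elim_inl] at h
    rintro (i | j)
    exacts [Fintype.linearIndependent_iff.1 f3 _ h i, h2 j]
  have cd := linearIndependent_le_span_aux' _ li (range fun j => P.mkQ (z j)) (by
    rintro _ ⟨i | j, rfl⟩
    exacts [(HW _ (f1 i)).1, hW _ (up j)])
  refine ⟨_, b, c, ?_, hb, fun e φ h => ?_⟩
  · simpa using cd.trans (Fintype.card_range_le _)
  · obtain ⟨γ, hγ⟩ := (Submodule.mem_span_range_iff_exists_fun ℂ).1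
      (f2.ge (Submodule.subset_span (⟨e, φ, h, rfl⟩ : P.mkQ (hm t φ e) ∈ H)))
    simp only [ef, ← map_smul, ← map_sum] at hγ
    obtain ⟨x, hx, ex⟩ := (Submodule.Quotient.eq P).1 hγ.symm
    exact ⟨γ, x, hx, ex⟩

end Vale.Agent.P283R.Lx
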