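import Vale.Agent.P283R.Lx.Ld33
import Vale.Agent.P283R.Cx.All
import Vale.Agent.P283R.Cx.Lk
import Vale.Agent.P283R.Tg.St

/-!
# P283R, block LX: the embedding dimension of the ring of the sections
-/

open Set
open Vale.Agent.P297Z
open Vale.Agent.P287D Vale.Agent.P283M Vale.Agent.P283R.To Vale.Agent.P283R.Cx

noncomputable section

namespace Vale.Agent.P283R.Lx

variable {K F : Type} [Field K] [Algebra ℂ K] [Field F] [Algebra ℂ F] [Algebra K F]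
  [IsScalarTower ℂ K F] {d n k r N m : ℕ} {t : Fin k → F} {T : Set (Pl K)}
  {D : Pl K → Fin k → ℤ} {s : Fin N → K} {a : Fin N → Fin k → ℤ} {h₀ φ : K} {e₀ : Fin k → ℤ}

namespace L33

omit [Algebra ℂ K] [IsScalarTower ℂ K F] in
theorem ld_eq {y : Fin d → K} (t0 : ∀ i, t i ≠ 0) (h0 : h₀ ≠ 0) (U : Pl F) :
    ld (zt y t) 1 (hm t h₀ e₀ * ∏ i, t i) U = lt y t U - U.ord (hm t h₀ e₀) := by
  rw [ld, lt, Pl.ord_mul _ (hm_ne t0 h0 _) (Finset.prod_ne_zero_iff.2 fun i _ => t0 i),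
    ord_prod U t0]
  push_cast
  ring

/-- the canonical class is trivial -/
theorem pd_one {y : Fin d → K} (x : Ext K d t) (hy : Frm y) (cx : Cox T D s a) (h0 : h₀ ≠ 0)
    (e1 : ∀ P ∈ T, kap y P = P.ord h₀ + (e₀ ⬝ᵥ D P : ℤ)) {R : Pl F} (hR : PD (Rg s a t) R) :
    lt y t R - R.ord (hm t h₀ e₀) = 1 := by
  rcases pdv K F d k y t x hy N T D s a cx R hR with ⟨E, hE, g⟩ | z
  · rw [g.lt, g.ord _ _ h0, e1 E hE]
    push_cast
    ring
  · rw [kah K F d k y t x hy N T D s a cx R hR z, z _ _ h0]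
    simp

/-- the boundary contains the divisors of the sections `g i` -/
theorem bd_ge {y : Fin d → K} (x : Ext K d t) (hy : Frm y) (cx : Cox T D s a) (h0 : h₀ ≠ 0)
    (e1 : ∀ P ∈ T, kap y P = P.ord h₀ + (e₀ ⬝ᵥ D P : ℤ)) (φ0 : φ ≠ 0)
    {ι : Type} [Fintype ι] {g : ι → K} (g0 : ∀ i, g i ≠ 0) {e : ι → Fin k → ℤ} {c : ι → ℝ}
    (hΛ : ∀ P ∈ T, ∑ i, c i * (P.ord (g i) + e i ⬝ᵥ D P : ℤ) ≤ P.ord φ / m - kap y P)
    {U : Pl F} (hU : ∀ b ∈ Rg s a t, b ∈ U.ring) :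
    ∑ i, c i * U.ord (hm t (g i) (e i)) ≤
      U.ord (algebraMap K F φ) / m - U.ord (hm t h₀ e₀) := by
  have t0 := x.ind.ne_zero
  have := rha (d + k) F (Rg s a t) (ι ⊕ Bool)
    (Sum.elim (fun i => hm t (g i) (e i)) fun b => cond b (hm t φ 0) (hm t h₀ e₀))
    (Sum.elim (fun i => -c i) fun b => cond b (m : ℝ)⁻¹ (-1)) (aff K F d k y t x hy N T D s a cx)
    (nor K F d k y t x hy N T D s a cx)
    (by
      rintro (i | _ | _)
      exacts [hm_ne t0 (g0 _) _, hm_ne t0 h0 _, hm_ne t0 φ0 _])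
    (fun R hR => ?_) U hU
  · simp only [Fintype.sum_sum_type, Fintype.sum_bool, Sum.elim_inl, Sum.elim_inr, cond_true,
      cond_false, hm_deg0, neg_mul, Finset.sum_neg_distrib] at this
    rw [div_eq_inv_mul]
    linarith
  · simp only [Fintype.sum_sum_type, Fintype.sum_bool, Sum.elim_inl, Sum.elim_inr, cond_true,
      cond_false, neg_mul, Finset.sum_neg_distrib]
    rcases pdv K F d k y t x hy N T D s a cx R hR with ⟨E, hE, v⟩ | z
    · have b := hΛ E hE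
      rw [e1 E hE, div_eq_inv_mul] at b
      simp only [v.ord _ _ (g0 _), v.ord _ _ h0, v.ord _ _ φ0, zero_dotProduct, add_zero]
      push_cast at b ⊢
      linarith
    · simp [z _ _ φ0, z _ _ h0, z _ _ (g0 _)]

omit [Algebra ℂ K] [Algebra K F] [IsScalarTower ℂ K F] in
theorem ord_unit {U : Pl F} {z : F} {γ : ℂ} (γ0 : γ ≠ 0) (hz : z - algebraMap ℂ F γ ∈ U.ring)
    (h : U.rd (z - algebraMap ℂ F γ) = 0) : U.ord z = 0 := by
  have e : z = z - algebraMap ℂ F γ + algebraMap ℂ F γ := (sub_add_cancel _ _).symm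
  have zm : z ∈ U.ring := e ▸ add_mem hz (U.con γ)
  have r0 : U.rd z ≠ 0 := by
    rw [e, Cb.rd_add hz (U.con γ), h, zero_add, Cb.rd_const]
    exact (map_ne_zero _).2 γ0
  have := mt ((Cb.rd_eq_zero zm).trans Cb.mx_iff).2 r0
  have b := Pl.ord_nonneg_of_mem _ zm
  push Not at this
  exact le_antisymm this.2 b

/-- the Gauss inequality on the spectrum of the ring of the sections -/
theorem ld_ge {y : Fin d → K} (x : Ext K d t) (hy : Frm y) (cx : Cox T D s a) (h0 : h₀ ≠ 0)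
    (e1 : ∀ P ∈ T, kap y P = P.ord h₀ + (e₀ ⬝ᵥ D P : ℤ)) (φ0 : φ ≠ 0)
    {ι : Type} [Fintype ι] {g : ι → K} (g0 : ∀ i, g i ≠ 0) {e : ι → Fin k → ℤ} {c : ι → ℝ}
    (hΛ : ∀ P ∈ T, ∑ i, c i * (P.ord (g i) + e i ⬝ᵥ D P : ℤ) ≤ P.ord φ / m - kap y P)
    {σ : Fin r → K} (σ0 : ∀ j, σ j ≠ 0) {l : Fin r → Fin k → ℤ} (hl : LinearIndependent ℤ l)
    (γ : Fin r → ℂ) {U : Pl F} (hU : ∀ b ∈ Rg s a t, b ∈ U.ring)
    (h1 : ∀ j, U.ord (hm t (σ j) (l j)) = 0)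
    (lc : ∀ Q, Lies (algebraMap K F) U Q → 0 ≤ ld y m φ Q) :
    ∑ i, c i * U.ord (hm t (g i) (e i)) +
      ∑ j, (U.ord (hm t (σ j) (l j) - algebraMap ℂ F (γ j)) : ℝ) ≤
        lt y t U - U.ord (hm t h₀ e₀) := by
  have b := bd_ge x hy cx h0 e1 φ0 g0 hΛ hU
  rcases ldi x hy σ0 hl γ U h1 with ⟨tr, w⟩ | ⟨Q, q, w⟩
  · rw [Trv.ord (φ := algebraMap K F) tr] at b
    simp only [Int.cast_zero, zero_div] at b
    linarith
  · have v := lc Q q
    have p : (0 : ℝ) < U.ord (algebraMap K F Q.t) := by exact_mod_cast q.e_pos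
    rw [q.ord, Int.cast_mul, mul_div_assoc] at b
    rw [ld] at v
    nlinarith [mul_nonneg p.le v]

end L33

/-- **LIFT**: the embedding dimension of the ring of the sections at a point `p` at which the
sections `g i` vanish and the sections `σ j` take the values `γ j ≠ 0` -/
theorem lift {E : ℕ} {b : ℝ} (em : Tg.EM (n + 1 + k) E 0 b) (b0 : 0 ≤ b) {u : Finset K}
    {Λ Γ Γ' : BD K} {y : Fin (n + 1) → K} (A : Dat n u Λ Γ Γ') (cx : Cox (Tt n u Λ) D s a)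
    (x : Ext K (n + 1) t) (hy : Frm y) (ey : cn K (n + 1) = kap y)
    (e1 : Eqv (Tt n u Λ) D (cn K (n + 1)) h₀ e₀) (φ0 : φ ≠ 0)
    {ι : Type} [Fintype ι] {g : ι → K} (g0 : ∀ i, g i ≠ 0) {e : ι → Fin k → ℤ} {c : ι → ℝ}
    (c0 : ∀ i, 0 ≤ c i)
    (hΛ : ∀ P ∈ Tt n u Λ, ∑ i, c i * (P.ord (g i) + e i ⬝ᵥ D P : ℤ) ≤ P.ord φ / m - kap y P)
    {σ : Fin r → K} (σ0 : ∀ j, σ j ≠ 0) {l : Fin r → Fin k → ℤ} (hl : LinearIndependent ℤ l)
    {γ : Fin r → ℂ} (γ0 : ∀ j, γ j ≠ 0) {p : Ideal (Rg s a t)} (hp : p.IsMaximal)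
    (hg : ∀ i, ∃ z ∈ p, (z : F) = hm t (g i) (e i))
    (hσ : ∀ j, ∃ z ∈ p, (z : F) = hm t (σ j) (l j) - algebraMap ℂ F (γ j))
    (lc : ∀ U, Cen (Rg s a t) p U → ∀ Q, Lies (algebraMap K F) U Q → Ov u Q → 0 ≤ ld y m φ Q)
    (hb : b < ∑ i, c i + r) : Bx.Emd E (Rg s a t) p := by
  have t0 := x.ind.ne_zero
  have e2 : ∀ P ∈ Tt n u Λ, kap y P = P.ord h₀ + (e₀ ⬝ᵥ D P : ℤ) := fun P h => ey ▸ e1.2 P h
  refine em F (Rg s a t) p (zt y t) (hm t h₀ e₀ * ∏ i, t i)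
    (aff K F _ k y t x hy N _ D s a cx) (nor K F _ k y t x hy N _ D s a cx) hp (zt_frm x hy)
    (mul_ne_zero (hm_ne t0 e1.1 _) (Finset.prod_ne_zero_iff.2 fun i _ => t0 i))
    (fun R ⟨q, _, h⟩ => ?_) (fun q _ R h => ?_) fun U hU => ?_
  · rw [L33.ld_eq t0 e1.1]
    exact L33.pd_one x hy cx e1.1 e2 ⟨q, h⟩
  · rw [L33.ld_eq t0 e1.1]
    exact kly_of lar neg dwn hor n k N K F u Λ Γ Γ' D s a y t h₀ e₀ A cx x hy ey e1 R
      fun z hz => (h ⟨z, hz⟩).1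
  · have hU' : ∀ z ∈ Rg s a t, z ∈ U.ring := fun z hz => (hU ⟨z, hz⟩).1
    choose X X1 X2 using hg
    choose W W1 W2 using hσ
    have h1 : ∀ j, U.ord (hm t (σ j) (l j)) = 0 := fun j =>
      L33.ord_unit (γ0 j) (W2 j ▸ (hU (W j)).1) (W2 j ▸ (hU (W j)).2.1 (W1 j))
    have key := L33.ld_ge x hy cx e1.1 e2 φ0 g0 hΛ σ0 hl γ hU' h1 fun Q q =>
      lc U hU Q q (Tz.ov_of grd x hy cx hU' q)
    have w0 := (ldi' x hy σ0 hl γ U h1).1
    let Z : ι ⊕ Fin r → Rg s a t := Sum.elim X W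
    have Z1 : ∀ i, Z i ∈ p := by
      rintro (i | j)
      exacts [X1 i, W1 j]
    have Z0 : ∀ i, (Z i : F) ≠ 0 := by
      rintro (i | j)
      exacts [(X2 i).trans_ne (hm_ne t0 (g0 i) _), (W2 j).trans_ne (w0 j)]
    have ne : Nonempty (ι ⊕ Fin r) := by
      by_contra z
      rw [not_nonempty_iff, isEmpty_sum] at z
      have := z.1
      have r0 : r = 0 := by simpa using Fintype.card_eq_zero_iff.2 z.2
      simp [r0] at hb
      linarith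
    obtain ⟨i, hi⟩ := Finite.exists_min fun i => U.ord (Z i : F)
    have pos : 0 < U.ord (Z i : F) :=
      (Cb.mx_iff.1 ((Cb.rd_eq_zero (hU (Z i)).1).1 ((hU (Z i)).2.1 (Z1 i)))).resolve_left (Z0 i)
    have pos' : (0 : ℝ) < U.ord (Z i : F) := by exact_mod_cast pos
    refine ⟨Z i, Z1 i, fun z => Z0 i (by rw [z]; rfl), ?_⟩
    rw [L33.ld_eq t0 e1.1]
    have s1 : ∑ j, c j * U.ord (Z i : F) ≤ ∑ j, c j * U.ord (hm t (g j) (e j)) :=
      Finset.sum_le_sum fun j _ => mul_le_mul_of_nonneg_left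
        (by rw [← X2]; exact_mod_cast hi (.inl j)) (c0 j)
    have s2 : ∑ _j : Fin r, (U.ord (Z i : F) : ℝ) ≤
        ∑ j, (U.ord (hm t (σ j) (l j) - algebraMap ℂ F (γ j)) : ℝ) :=
      Finset.sum_le_sum fun j _ => by rw [← W2]; exact_mod_cast hi (.inr j)
    rw [← Finset.sum_mul] at s1
    rw [Finset.sum_const, Finset.card_univ, Fintype.card_fin, nsmul_eq_mul] at s2
    nlinarith [mul_lt_mul_of_pos_right hb pos']

end Vale.Agent.P283R.Lx
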