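import Vale.Agent.P283R.Lx.St
import Vale.Agent.P283R.Lx.Lf33

/-!
# P283R, block LX, rows LGF and EMB
-/

open Set
open Vale.Agent.P297Z
open Vale.Agent.P287D Vale.Agent.P283M Vale.Agent.P283R.Cx

noncomputable section

namespace Vale.Agent.P283R.Lx

/-- **LGF** -/
theorem lgf : LGF := fun K F _ _ _ _ _ _ d k y t x hy r l w hl w0 U hU => by
  have h := ldi x hy w0 hl (fun _ => 1) U fun j => L33.ord_unit (γ := 1) one_ne_zero
    (by rw [map_one]; exact Cb.mem_ord (hU j).le)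
    (by
      rw [map_one]
      exact (Cb.rd_eq_zero (Cb.mem_ord (hU j).le)).2 (Cb.mx_iff.2 (.inr (hU j))))
  simpa only [map_one] using h

/-- **EMB** -/
theorem emb : EMB := by
  intro K F _ _ _ _ _ _ n k N q r σ μ E ε u Λ Γ Γ' y D s a h g φ δ b t m p l w e α _ _ k2 dy bs o lc
    hb em
  have t0 := bs.ext.ind.ne_zero
  have w0 : ∀ j, w j ≠ 0 := fun j z => by
    obtain ⟨v, -, v1, v2⟩ := o.inv j
    exact v2 (by
      have : (⟨w j * v, v1⟩ : Algebra.adjoin ℂ (u : Set K)) = 0 := Subtype.ext (by simp [z])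
      rw [this]
      exact zero_mem _)
  refine lift (γ := fun _ => 1) (g := fun _ => 1) (e := e) (c := α) (m := μ) em ?_ dy.dat dy.cox
    bs.ext dy.fr dy.cn (dy.cn ▸ dy.can) lc.ne (fun _ => one_ne_zero) lc.nn (fun P hP => ?_) w0
    o.ind (fun _ => one_ne_zero) o.max (fun i => ?_) (fun j => ?_) (fun _ _ Q _ => lc.lc Q) hb
  · have : (2 : ℝ) ≤ k := by exact_mod_cast k2
    have : (0 : ℝ) ≤ n := n.cast_nonneg
    push_cast
    linarith
  · simpa using lc.le P hP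
  · exact ⟨⟨_, mem_Rg t0 (lc.van i).1⟩, o.hom _ _ (lc.van i) _ rfl, rfl⟩
  · exact ⟨⟨_, sub_mem (mem_Rg t0 (o.mem j)) (one_mem _)⟩, o.one j _ rfl, by simp⟩

/-- **EMBR** -/
theorem embr : EMBR := fun _ => emb

end Vale.Agent.P283R.Lx
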