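import Vale.Agent.P283R.Lx.Gh3

/-!
# P283R, block LX: the generators, the assembly
-/

open Set

noncomputable section

namespace Vale.Agent.P283R.Lx.G3

open Vale.Agent.P287D Vale.Agent.P283R.Cx

/-- the graded lemma of Nakayama -/
def KR : Prop := ForB fun K _ _ _ _ _ _ d k _ _ s a A m => ∃ τ : Fin (d + 1) → K,
  (∀ i, τ i ∈ A) ∧
  (∀ x, Nz A m x → ∃ y ∈ A, x * y ∈ Algebra.adjoin ℂ (range τ) ∧ Nz A m (x * y)) ∧
  ∃ I2 : (Fin k → ℤ) → Submodule ℂ K,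
    (∀ e e₁, ∀ x ∈ Ie A m s a e₁, ∀ y ∈ Ie A m s a (e - e₁), x * y ∈ I2 e) ∧
    ∀ M : (Fin k → ℤ) → Submodule ℂ K,
      (∀ {e e' x y}, x ∈ M e → y ∈ M e' → x * y ∈ M (e + e')) → 1 ∈ M 0 →
      (∀ e, M e ≤ Sp s a e) → (∀ i, τ i ∈ M 0) →
      (∀ e, ∀ φ ∈ Sp s a e, ∃ x ∈ M e, φ - x ∈ Ie A m s a e) →
      (∀ e, ∀ φ ∈ Ie A m s a e, ∃ x ∈ M e, x ∈ Ie A m s a e ∧ φ - x ∈ I2 e) →
      ∀ e, ∃ g ∈ Algebra.adjoin ℂ (range τ), Nz A m g ∧ ∀ φ ∈ Sp s a e, g * φ ∈ M e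

/-- the family of the generators -/
theorem fam {K : Type} [Field K] [Algebra ℂ K] {d k n r : ℕ} (τ : Fin d → K) (b : Fin n → K)
    (c : Fin n → Fin k → ℤ) (w : Fin r → K) (l : Fin r → Fin k → ℤ) (ω : K → K) (o : Fin k → ℤ) :
    ∃ (s' : K → Fin (d + n + r + 1) → K) (a' : Fin (d + n + r + 1) → Fin k → ℤ),
      (∀ g i, τ i ∈ Sp (s' g) a' 0) ∧ (∀ g i, b i ∈ Sp (s' g) a' (c i)) ∧
      (∀ g i, w i ∈ Sp (s' g) a' (l i)) ∧ (∀ g, ω g ∈ Sp (s' g) a' o) ∧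
      ∀ g (M : (Fin k → ℤ) → Submodule ℂ K), (∀ i, τ i ∈ M 0) → (∀ i, b i ∈ M (c i)) →
        (∀ i, w i ∈ M (l i)) → ω g ∈ M o → ∀ j, s' g j ∈ M (a' j) := by
  refine ⟨fun g => Fin.snoc (Fin.append (Fin.append τ b) w) (ω g),
    Fin.snoc (Fin.append (Fin.append (fun _ => 0) c) l) o, fun g i => ?_, fun g i => ?_,
    fun g i => ?_, fun g => ?_, fun g M h1 h2 h3 h4 j => ?_⟩
  · convert gen_sp _ _ (Fin.castSucc (Fin.castAdd r (Fin.castAdd n i))) <;> simp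
  · convert gen_sp _ _ (Fin.castSucc (Fin.castAdd r (Fin.natAdd d i))) <;> simp
  · convert gen_sp _ _ (Fin.castSucc (Fin.natAdd (d + n) i)) <;>
      simp only [Fin.snoc_castSucc, Fin.append_right]
  · convert gen_sp _ _ (Fin.last (d + n + r)) <;> simp
  · refine Fin.lastCases (by simpa using h4) (fun j => ?_) j
    simp only [Fin.snoc_castSucc]
    refine Fin.addCases (fun j => ?_) (fun j => by simpa using h3 j) j
    exact Fin.addCases (fun j => by simpa using h1 j) (fun j => by simpa using h2 j) j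

/-- the localisation -/
def Lz {K : Type} [Field K] [Algebra ℂ K] {k N : ℕ} {s : Fin N → K} {a : Fin N → Fin k → ℤ} {g : K}
    (gS : ∀ q : ℕ, g ^ q ∈ Sp s a 0) (x : Fin k → ℤ) : Submodule ℂ K where
  carrier := {φ | ∃ q : ℕ, g ^ q * φ ∈ Sp s a x}
  add_mem' := fun {φ ψ} ⟨q, h⟩ ⟨q', h'⟩ => ⟨q + q', by
    have := add_mem (sp_mul (gS q') h) (sp_mul (gS q) h')
    rw [zero_add] at this
    convert this using 1
    ring⟩
  zero_mem' := ⟨0, by simp⟩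
  smul_mem' := fun c φ ⟨q, h⟩ => ⟨q, by
    rw [mul_smul_comm]; exact Submodule.smul_mem _ _ h⟩

theorem gen_of (hc : CNT) (hk : KR) : GEN := by
  intro K F _ _ _ _ _ _ d k N t s a A m bs p r E l w o em
  classical
  obtain ⟨n, b, c, le, hb, cn⟩ := hc K F d k N t s a A m bs p r E l w o em
  obtain ⟨τ, τA, nr, I2, i2, kr⟩ := hk K F d k N t s a A m bs
  have mp := bs.max.isPrime
  have n0 : ∀ {x}, Nz A m x → x ≠ 0 := fun ⟨h, z⟩ e => z (by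
    subst e; exact m.zero_mem)
  have np : ∀ {ι : Type} (T : Finset ι) (x : ι → K), (∀ i, Nz A m (x i)) → Nz A m (∏ i ∈ T, x i) :=
    fun T x h => Finset.prod_induction _ _ (fun _ _ => O15.nz_mul mp) (O15.nz_one mp.ne_top)
      fun i _ => h i
  have : ∀ j, ∃ v ∈ Sp s a (-l j), w j * v ∈ Algebra.adjoin ℂ (range τ) ∧ Nz A m (w j * v) :=
    fun j => by
      obtain ⟨v, v1, v2⟩ := o.inv j
      obtain ⟨y, y1, y2, y3⟩ := nr _ v2
      exact ⟨v * y, by simpa using sp_mul v1 ((bs.zero y).1 y1), mul_assoc (w j) v y ▸ y2,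
        mul_assoc (w j) v y ▸ y3⟩
  choose v v1 v2 v3 using this
  have w0 : ∀ j, w j ≠ 0 := fun j => left_ne_zero_of_mul (n0 (v3 j))
  have W0 : ∏ j, w j ≠ 0 := Finset.prod_ne_zero_iff.2 fun j _ => w0 j
  obtain ⟨s', a', tH, bH, wH, oH, un⟩ := fam τ b c w l (fun g => (g * ∏ j, w j)⁻¹) (-∑ j, l j)
  let H : K → (Fin k → ℤ) → Submodule ℂ K := fun g => Sp (s' g) a'
  have aH : ∀ g, ∀ x ∈ Algebra.adjoin ℂ (range τ), x ∈ H g 0 := fun g x hx =>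
    adj_sp (tH g) hx
  have pH : ∀ g (T : Finset (Fin r)), ∏ j ∈ T, w j ∈ H g (∑ j ∈ T, l j) := fun g T =>
    prod_mem (M := H g) sp_mul (O15.one_sp _ _) T (wH g)
  obtain ⟨M, mM⟩ : ∃ M : (Fin k → ℤ) → Submodule ℂ K, ∀ {x φ}, φ ∈ M x ↔ φ ∈ Sp s a x ∧
      ∀ g ∈ Algebra.adjoin ℂ (range τ), g ≠ 0 → φ ∈ H g x :=
    ⟨fun x => Sp s a x ⊓ ⨅ g ∈ Algebra.adjoin ℂ (range τ), ⨅ _ : g ≠ 0, H g x, by
      simp only [Submodule.mem_inf, Submodule.mem_iInf, implies_true]⟩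
  have lM : ∀ x, M x ≤ Sp s a x := fun _ _ h => (mM.1 h).1
  have vH : ∀ j, ∀ g ∈ Algebra.adjoin ℂ (range τ), g ≠ 0 → v j ∈ H g (-l j) := fun j g g1 g0 => by
    have := sp_mul (sp_mul (aH g _ (mul_mem (v2 j) g1)) (pH g (Finset.univ.erase j))) (oH g)
    have e1 : 0 + ∑ i ∈ Finset.univ.erase j, l i + -∑ i, l i = -l j := by
      rw [← Finset.add_sum_erase _ _ (Finset.mem_univ j)]
      abel
    have e2 : (w j * v j * g * ∏ i ∈ Finset.univ.erase j, w i) * (g * ∏ i, w i)⁻¹ = v j := by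
      rw [mul_inv_eq_iff_eq_mul₀ (mul_ne_zero g0 W0),
        ← Finset.mul_prod_erase _ _ (Finset.mem_univ j)]
      ring
    rwa [e1, e2] at this
  have mul : ∀ {e e' x y}, x ∈ M e → y ∈ M e' → x * y ∈ M (e + e') := fun h h' =>
    mM.2 ⟨sp_mul (mM.1 h).1 (mM.1 h').1, fun g g1 g0 =>
      sp_mul ((mM.1 h).2 g g1 g0) ((mM.1 h').2 g g1 g0)⟩
  have one : 1 ∈ M 0 := mM.2 ⟨O15.one_sp _ _, fun _ _ _ => O15.one_sp _ _⟩
  have hy := hyp bs o hb cn mul one lM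
    (fun i => mM.2 ⟨(hb i).1, fun g _ _ => bH g i⟩)
    (fun j => mM.2 ⟨o.mem j, fun g _ _ => wH g j⟩)
    (fun j => ⟨v j, mM.2 ⟨v1 j, vH j⟩, v3 j⟩) i2
  choose γ γ1 γ2 γ3 using kr M mul one lM
    (fun i => mM.2 ⟨(bs.zero _).1 (τA i), fun g _ _ => tH g i⟩) (fun e => (hy e).1)
    fun e => (hy e).2
  obtain ⟨g, hg⟩ : ∃ g, g = (∏ j, γ (a j)) * ∏ j, w j * v j := ⟨_, rfl⟩
  have g1 : g ∈ Algebra.adjoin ℂ (range τ) :=
    hg ▸ mul_mem (_root_.prod_mem fun j _ => γ1 _) (_root_.prod_mem fun j _ => v2 j)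
  have g2 : Nz A m g := hg ▸ O15.nz_mul mp (np _ _ fun j => γ2 _) (np _ _ v3)
  have g0 := n0 g2
  have gi : g⁻¹ ∈ H g 0 := by
    have := sp_mul (pH g Finset.univ) (oH g)
    rw [add_neg_cancel] at this
    convert this using 1
    field_simp
  have l1 : ∀ x, Sp s a x ≤ H g x := sp_le (M := H g) sp_mul (O15.one_sp _ _) fun j => by
    have := sp_mul (sp_mul gi (aH g _ (mul_mem (_root_.prod_mem (t := Finset.univ.erase j)
      fun i _ => γ1 (a i)) (_root_.prod_mem (t := Finset.univ) fun j _ => v2 j))))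
      ((mM.1 (γ3 _ _ (gen_sp s a j))).2 g g1 g0)
    rw [add_zero, zero_add] at this
    convert this using 1
    rw [eq_comm, mul_assoc, inv_mul_eq_iff_eq_mul₀ g0, hg,
      ← Finset.mul_prod_erase _ _ (Finset.mem_univ j)]
    ring
  have gS : ∀ q : ℕ, g ^ q ∈ Sp s a 0 := fun q => (bs.zero _).1 (pow_mem g2.1 q)
  have i0 : ∀ {x φ}, φ ∈ Sp s a x → φ ∈ Lz gS x := fun h => ⟨0, by simpa using h⟩
  have l2 : ∀ x, H g x ≤ Lz gS x := sp_le (M := Lz gS) (fun ⟨q, h⟩ ⟨q', h'⟩ => ⟨q + q', by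
      convert sp_mul h h' using 1
      ring⟩) (i0 (O15.one_sp _ _)) (un g _ (fun i => i0 ((bs.zero _).1 (τA i)))
      (fun i => i0 (hb i).1) (fun i => i0 (o.mem i)) ⟨2, by
    have := sp_mul ((bs.zero _).1 (np Finset.univ _ fun j => γ2 (a j)).1)
      (prod_mem (M := Sp s a) sp_mul (O15.one_sp _ _) Finset.univ v1)
    rw [zero_add, Finset.sum_neg_distrib] at this
    convert this using 1
    rw [mul_inv_eq_iff_eq_mul₀ (mul_ne_zero g0 W0), pow_two]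
    nth_rewrite 1 [hg]
    rw [Finset.prod_mul_distrib]
    ring⟩)
  refine ⟨_, s' g, a', g, by omega, g2, fun x φ => ⟨fun h => l2 x h, fun ⟨q, h⟩ => ?_⟩⟩
  have := sp_mul (prod_mem (M := H g) sp_mul (O15.one_sp _ _) (Finset.range q) fun _ => gi)
    (l1 x h)
  simpa [inv_mul_cancel_left₀ (pow_ne_zero q g0)] using this

end Vale.Agent.P283R.Lx.G3
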