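import Vale.Agent.P283R.Lx.Cnt
import Vale.Agent.P283R.Lx.Orb

/-!
# P283R, block LX: the homogeneous form of the conormal space
-/

open Set

noncomputable section

namespace Vale.Agent.P283R.Lx.G3

open Vale.Agent.P287D Vale.Agent.P283R.Cx

variable {K F : Type} [Field K] [Algebra ℂ K] [Field F] [Algebra ℂ F] [Algebra K F]
  {d k N r n : ℕ} {t : Fin k → F} {s : Fin N → K} {a : Fin N → Fin k → ℤ} {A : Subalgebra ℂ K}
  {m : Ideal A} {M : (Fin k → ℤ) → Submodule ℂ K}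

theorem gen_sp (s : Fin N → K) (a : Fin N → Fin k → ℤ) (j : Fin N) : s j ∈ Sp s a (a j) := by
  have := mon_mem s a (Pi.single j 1)
  rwa [dg_single, Finset.prod_eq_single j (fun l _ h => by simp [h]) (by simp),
    Pi.single_eq_same, pow_one] at this

theorem prod_mem (mul : ∀ {e e' x y}, x ∈ M e → y ∈ M e' → x * y ∈ M (e + e')) (one : 1 ∈ M 0)
    {ι : Type} (T : Finset ι) {x : ι → K} {c : ι → Fin k → ℤ} (h : ∀ j, x j ∈ M (c j)) :
    ∏ j ∈ T, x j ∈ M (∑ j ∈ T, c j) := by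
  classical
  induction T using Finset.induction_on with
  | empty => simpa using one
  | insert j T hj ih =>
    rw [Finset.prod_insert hj, Finset.sum_insert hj]
    exact mul (h j) ih

theorem sp_le (mul : ∀ {e e' x y}, x ∈ M e → y ∈ M e' → x * y ∈ M (e + e')) (one : 1 ∈ M 0)
    (h : ∀ j, s j ∈ M (a j)) (e : Fin k → ℤ) : Sp s a e ≤ M e := by
  refine Submodule.span_le.2 ?_
  rintro _ ⟨c, rfl, rfl⟩
  have := prod_mem mul one Finset.univ (x := fun j => s j ^ c j) (c := fun j => c j • a j)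
    fun j => by simpa using prod_mem mul one (Finset.range (c j)) fun _ => h j
  have e : dg a c = ∑ j, c j • a j := funext fun i => by simp [dg, Finset.sum_apply]
  exact e ▸ this

theorem adj_sp {ι : Type} {τ : ι → K} (h : ∀ i, τ i ∈ Sp s a 0) {x : K}
    (hx : x ∈ Algebra.adjoin ℂ (range τ)) : x ∈ Sp s a 0 := by
  induction hx using Algebra.adjoin_induction with
  | mem x hx => obtain ⟨i, rfl⟩ := hx; exact h i
  | algebraMap c =>
    rw [Algebra.algebraMap_eq_smul_one]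
    exact Submodule.smul_mem _ _ (O15.one_sp s a)
  | add x y _ _ hx hy => exact add_mem hx hy
  | mul x y _ _ hx hy => simpa using sp_mul hx hy

variable [IsScalarTower ℂ K F] {p : Ideal (Rg s a t)} {l : Fin r → Fin k → ℤ} {w : Fin r → K}

/-- the values at the point -/
theorem val (bs : Bs d t s a A m) (o : Orb t s a A m p l w) :
    ∃ (χ : Rg s a t →ₐ[ℂ] ℂ) (v : (Fin k → ℤ) → K →ₗ[ℂ] ℂ), (∀ x, χ x = 0 ↔ x ∈ p) ∧
      (∀ e φ (x : Rg s a t), (x : F) = hm t φ e → v e φ = χ x) ∧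
      (∀ e e' φ ψ, φ ∈ Sp s a e → ψ ∈ Sp s a e' → v (e + e') (φ * ψ) = v e φ * v e' ψ) ∧
      ∀ e φ, φ ∈ Ie A m s a e ↔ φ ∈ Sp s a e ∧ v e φ = 0 := by
  have := o.max
  have := bs.max
  have t0 := bs.ext.ind.ne_zero
  obtain ⟨χ, hχ⟩ := C3.chi (S := Rg s a t) (Subalgebra.fg_def.2 ⟨_, finite_range _, rfl⟩) p
  obtain ⟨χ', e'⟩ := LinearMap.exists_extend (p := (Rg s a t).toSubmodule) χ.toLinearMap
  let v : (Fin k → ℤ) → K →ₗ[ℂ] ℂ := fun e => χ' ∘ₗ
    { toFun := fun φ => hm t φ e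
      map_add' := fun φ ψ => hm_add t φ ψ e
      map_smul' := fun c φ => hm_smul t c φ e }
  have h : ∀ e φ (x : Rg s a t), (x : F) = hm t φ e → v e φ = χ x := fun e φ x hx =>
    (congrArg χ' hx.symm).trans (LinearMap.congr_fun e' x)
  have mu : ∀ e e' φ ψ, φ ∈ Sp s a e → ψ ∈ Sp s a e' → v (e + e') (φ * ψ) = v e φ * v e' ψ :=
    fun e e' φ ψ h1 h2 => by
      rw [h e φ ⟨_, mem_Rg t0 h1⟩ rfl, h e' ψ ⟨_, mem_Rg t0 h2⟩ rfl, ← map_mul]
      exact h _ _ _ (hm_mul t0 φ ψ e e').symm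
  have i0 : ∀ e, ∀ φ ∈ Ie A m s a e, v e φ = 0 := fun e φ k =>
    (h e φ ⟨_, mem_Rg t0 k.1⟩ rfl).trans ((hχ _).2 (o.hom e φ k _ rfl))
  refine ⟨χ, v, hχ, h, mu, fun e φ => ⟨fun k => ⟨k.1, i0 e φ k⟩, fun ⟨h1, h2⟩ => ⟨h1, ?_⟩⟩⟩
  rintro ψ hψ ⟨y, hy⟩
  have := (Subalgebra.fg_iff_finiteType A).1 bs.fg
  obtain ⟨c, hc⟩ := O15.val m ⟨_, y⟩
  have e1 := i0 0 _ (O15.ie_base bs.zero hc)
  have e2 := mu e (-e) φ ψ h1 hψ
  rw [add_neg_cancel, h2, zero_mul] at e2
  have e3 : v 0 1 = 1 := (h 0 1 1 (hm_one t).symm).trans (map_one χ)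
  change v 0 (φ * ψ - algebraMap ℂ K c) = 0 at e1
  rw [map_sub, e2, Algebra.algebraMap_eq_smul_one, map_smul, e3, zero_sub, neg_eq_zero,
    smul_eq_mul, mul_one] at e1
  exact hy (by simpa [e1] using hc)

/-- **the two hypotheses of the graded lemma of Nakayama** -/
theorem hyp (bs : Bs d t s a A m) (o : Orb t s a A m p l w) {b : Fin n → K}
    {c : Fin n → Fin k → ℤ} (hb : ∀ i, b i ∈ Ie A m s a (c i))
    (cn : ∀ e, ∀ φ ∈ Ie A m s a e, ∃ γ : Fin n → ℂ, ∃ x ∈ p ^ 2,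
      (x : F) = hm t φ e - ∑ i, γ i • hm t (b i) (c i))
    (mul : ∀ {e e' x y}, x ∈ M e → y ∈ M e' → x * y ∈ M (e + e')) (one : 1 ∈ M 0)
    (le : ∀ e, M e ≤ Sp s a e) (bM : ∀ i, b i ∈ M (c i)) (wM : ∀ j, w j ∈ M (l j))
    (vM : ∀ j, ∃ u ∈ M (-l j), Nz A m (w j * u)) {I2 : (Fin k → ℤ) → Submodule ℂ K}
    (i2 : ∀ e e₁, ∀ x ∈ Ie A m s a e₁, ∀ y ∈ Ie A m s a (e - e₁), x * y ∈ I2 e) (e : Fin k → ℤ) :
    (∀ φ ∈ Sp s a e, ∃ x ∈ M e, φ - x ∈ Ie A m s a e) ∧
      ∀ φ ∈ Ie A m s a e, ∃ x ∈ M e, x ∈ Ie A m s a e ∧ φ - x ∈ I2 e := by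
  classical
  obtain ⟨χ, v, hχ, h, mu, ie⟩ := val bs o
  have t0 := bs.ext.ind.ne_zero
  set L := Submodule.span ℤ (range l)
  have v1 : v 0 1 = 1 := (h 0 1 1 (hm_one t).symm).trans (map_one χ)
  have ex : ∀ x ∈ L, ∃ u ∈ M x, v x u = 1 := fun x hx => by
    have hx' : x ∈ AddSubgroup.closure (range l) := by
      rw [← Submodule.span_int_eq_addSubgroupClosure]; exact hx
    clear hx
    induction hx' using AddSubgroup.closure_induction'' with
    | mem x hx =>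
      obtain ⟨j, rfl⟩ := hx
      refine ⟨w j, wM j, (h _ _ ⟨_, mem_Rg t0 (o.mem j)⟩ rfl).trans ?_⟩
      simpa [sub_eq_zero] using (hχ (⟨_, mem_Rg t0 (o.mem j)⟩ - 1)).2 (o.one j _ rfl)
    | neg_mem x hx =>
      obtain ⟨j, rfl⟩ := hx
      obtain ⟨u, u1, u2⟩ := vM j
      have : v (-l j) u ≠ 0 := fun z => ((ie _ _).2 ⟨le _ u1, z⟩).2 (w j)
        (by simpa using o.mem j) (mul_comm (w j) u ▸ u2)
      exact ⟨(v (-l j) u)⁻¹ • u, Submodule.smul_mem _ _ u1, by simp [this]⟩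
    | zero => exact ⟨1, one, v1⟩
    | add x y _ _ hx hy =>
      obtain ⟨u, u1, u2⟩ := hx
      obtain ⟨u', u3, u4⟩ := hy
      exact ⟨u * u', mul u1 u3, by rw [mu _ _ _ _ (le _ u1) (le _ u3), u2, u4, one_mul]⟩
  have : ∀ x, ∃ u ∈ M x, v x u = if x ∈ L then 1 else 0 := fun x => by
    split_ifs with hx
    exacts [ex x hx, ⟨0, zero_mem _, map_zero _⟩]
  choose U UM Uv using this
  have US := fun x => le x (UM x)
  have vL : ∀ {x φ}, φ ∈ Sp s a x → v x φ = 0 ∨ x ∈ L := fun {x φ} k =>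
    (em _).imp (fun z => ((ie x φ).1 z).2) (o.spn x φ k)
  have h1 : ∀ {x φ}, φ ∈ Sp s a x → φ - v x φ • U x ∈ Ie A m s a x := fun {x φ} k =>
    (ie _ _).2 ⟨sub_mem k (Submodule.smul_mem _ _ (US x)), by
      rw [map_sub, map_smul, Uv]
      rcases vL k with z | z <;> simp [z]⟩
  refine ⟨fun φ k => ⟨_, Submodule.smul_mem _ _ (UM e), h1 k⟩, fun φ k => ?_⟩
  let Q : Submodule ℂ K := (M e ⊓ LinearMap.ker (v e)) ⊔ I2 e
  have cs : ∀ {x y φ}, φ ∈ M x → x = y → φ ∈ M y := fun k z => z ▸ k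
  have mv : ∀ x y, v (x + y) (U x * U y) = v x (U x) * v y (U y) := fun x y =>
    mu _ _ _ _ (US x) (US y)
  have q2 : ∀ {x y φ ψ}, φ ∈ Sp s a x → φ - v x φ • U x ∈ Ie A m s a x → ψ ∈ Sp s a y →
      (φ - v x φ • U x) * (v y ψ • (U y * U (e - x - y) - U (e - x))) ∈ Q :=
    fun {x y φ ψ} _ k1 k2 => by
      have z : y + (e - x - y) = e - x := by abel
      refine Submodule.mem_sup_right (i2 e x _ k1 _ ((ie _ _).2 ⟨Submodule.smul_mem _ _
        (sub_mem (le _ (cs (mul (UM _) (UM _)) z)) (US _)), ?_⟩))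
      have b1 := mv y (e - x - y)
      rw [z] at b1
      rw [map_smul, map_sub, b1, Uv, Uv, Uv]
      rcases vL k2 with z | z
      · simp [z]
      · simp [z, L.sub_mem_iff_left z]
  obtain ⟨δ, hδ⟩ := C3.lin (F := F) bs.ext.ind fun x => LinearMap.mulRight ℂ (U (e - x))
  have hd : ∀ (φ : K) x, δ (hm t φ x) = φ * U (e - x) := hδ
  have key : ∀ x y : Rg s a t,
      δ ((x - algebraMap ℂ _ (χ x)) * (y - algebraMap ℂ _ (χ y)) : Rg s a t) ∈ Q := fun x y => by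
    refine C3.ind (q := fun x => δ ((x - algebraMap ℂ _ (χ x)) * (y - algebraMap ℂ _ (χ y)) :
      Rg s a t) ∈ Q) t0 (by simp) (fun e₁ φ x hφ hx => ?_) (fun x x' hx hx' => ?_) x
    · refine C3.ind (q := fun y => δ ((x - algebraMap ℂ _ (χ x)) * (y - algebraMap ℂ _ (χ y)) :
        Rg s a t) ∈ Q) t0 (by simp) (fun e₂ ψ y hψ hy => ?_) (fun y y' hy hy' => ?_) y
      · rw [← h e₁ φ x hx, ← h e₂ ψ y hy]
        have e1 : (((x - algebraMap ℂ _ (v e₁ φ)) * (y - algebraMap ℂ _ (v e₂ ψ)) : Rg s a t) : F) =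
            hm t (φ * ψ) (e₁ + e₂) - v e₂ ψ • hm t φ e₁ - v e₁ φ • hm t ψ e₂ +
              (v e₁ φ * v e₂ ψ) • hm t (1 : K) 0 := by
          rw [hm_mul t0, hm_one, ← hx, ← hy]
          simp only [Algebra.smul_def, map_mul, Subalgebra.coe_mul, Subalgebra.coe_sub,
            Subalgebra.coe_algebraMap]
          ring
        have z1 : e - (e₁ + e₂) = e - e₁ - e₂ := by abel
        have z2 : e - e₂ - e₁ = e - e₁ - e₂ := by abel
        have a1 := q2 hφ (h1 hφ) hψ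
        have a2 := q2 hψ (h1 hψ) hφ
        rw [z2] at a2
        have a3 : (φ - v e₁ φ • U e₁) * ((ψ - v e₂ ψ • U e₂) * U (e - e₁ - e₂)) ∈ Q :=
          Submodule.mem_sup_right (i2 e e₁ _ (h1 hφ) _ (by
            simpa using O15.ie_mul (h1 hψ) (US (e - e₁ - e₂))))
        have z3 : e₁ + (e₂ + (e - e₁ - e₂)) = e := by abel
        have z4 : ∀ x, x + (e - x) = e := fun x => by abel
        have m3 := mul (UM e₁) (mul (UM e₂) (UM (e - e₁ - e₂)))
        have a4 : (v e₁ φ * v e₂ ψ) • (U e₁ * (U e₂ * U (e - e₁ - e₂)) - U e₁ * U (e - e₁) -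
            U e₂ * U (e - e₂) + U e) ∈ Q := by
          refine Submodule.mem_sup_left ⟨Submodule.smul_mem _ _ (add_mem (sub_mem (sub_mem
            (cs m3 z3) (cs (mul (UM _) (UM _)) (z4 _))) (cs (mul (UM _) (UM _)) (z4 _))) (UM e)), ?_⟩
          have b1 := mu _ _ _ _ (US e₁) (le _ (mul (UM e₂) (UM (e - e₁ - e₂))))
          have b2 := mv e₁ (e - e₁)
          have b3 := mv e₂ (e - e₂)
          rw [z3, mv] at b1
          rw [z4] at b2 b3
          change v e _ = 0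
          rw [map_smul, map_add, map_sub, map_sub, b1, b2, b3]
          simp only [Uv]
          rcases vL hφ with z | z
          · simp [z]
          rcases vL hψ with z' | z'
          · simp [z']
          · simp [z, z', L.sub_mem_iff_left z, L.sub_mem_iff_left z']
        rw [e1, map_add, map_sub, map_sub, map_smul, map_smul, map_smul, hd, hd, hd, hd, z1,
          sub_zero]
        convert add_mem (add_mem (add_mem a3 a1) a2) a4 using 1
        simp only [Algebra.smul_def, map_mul]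
        ring
      · convert add_mem hy hy' using 1
        rw [← map_add, ← Subalgebra.coe_add, map_add, map_add]
        congr 2
        ring
    · convert add_mem hx hx' using 1
      rw [← map_add, ← Subalgebra.coe_add, map_add, map_add]
      congr 2
      ring
  obtain ⟨γ, x, hx, ex⟩ := cn e φ k
  have dx : δ x ∈ Q := by
    have hx' : x ∈ p * p := pow_two p ▸ hx
    refine Submodule.mul_induction_on (C := fun x : Rg s a t => δ x ∈ Q) hx' (fun x hx y hy => ?_)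
      fun x y hx hy => ?_
    · simpa [(hχ _).2 hx, (hχ _).2 hy] using key x y
    · rw [Subalgebra.coe_add, map_add]
      exact add_mem hx hy
  rw [ex, map_sub, map_sum, hd, sub_self] at dx
  have : φ ∈ Q := by
    have a1 : ∑ i, δ (γ i • hm t (b i) (c i)) ∈ Q := sum_mem fun i _ => by
      rw [map_smul, hd]
      have z : c i + (e - c i) = e := by abel
      have b1 := O15.ie_mul (hb i) (US (e - c i))
      rw [z] at b1
      exact Submodule.smul_mem _ _ (Submodule.mem_sup_left ⟨cs (mul (bM i) (UM _)) z,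
        ((ie _ _).1 b1).2⟩)
    have a2 : φ * (1 - U 0) ∈ Q := Submodule.mem_sup_right (i2 e e _ k _ (by
      simpa [v1] using h1 (O15.one_sp s a)))
    convert add_mem (add_mem dx a1) a2 using 1
    ring
  obtain ⟨x, ⟨x1, x2⟩, y, hy, rfl⟩ := Submodule.mem_sup.1 this
  exact ⟨x, x1, (ie _ _).2 ⟨le _ x1, x2⟩, by simpa using hy⟩

end Vale.Agent.P283R.Lx.G3
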