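import Vale.Agent.P283R.Lx.All

/-!
# P283R, block LX: complexity less than two plus the minimal log discrepancy, the tier
-/

open Set
open Vale.Agent.P297Z
open Vale.Agent.P287D Vale.Agent.P283M Vale.Agent.P283R.To Vale.Agent.P283R.Cx

noncomputable section

namespace Vale.Agent.P283R.Lx.M3

variable {K F : Type} [Field K] [Algebra ℂ K] [Field F] [Algebra ℂ F] [Algebra K F]
  [IsScalarTower ℂ K F] {d n k r N m : ℕ} {t : Fin k → F} {T : Set (Pl K)}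
  {D : Pl K → Fin k → ℤ} {s : Fin N → K} {a : Fin N → Fin k → ℤ} {h₀ φ : K} {e₀ : Fin k → ℤ}

/-- the Gauss inequality with a gain -/
theorem ld_gt {y : Fin d → K} (x : Ext K d t) (hy : Frm y) (cx : Cox T D s a) (h0 : h₀ ≠ 0)
    (e1 : ∀ P ∈ T, kap y P = P.ord h₀ + (e₀ ⬝ᵥ D P : ℤ)) (φ0 : φ ≠ 0)
    {ι : Type} [Fintype ι] {g : ι → K} (g0 : ∀ i, g i ≠ 0) {e : ι → Fin k → ℤ} {c : ι → ℝ}
    (hΛ : ∀ P ∈ T, ∑ i, c i * (P.ord (g i) + e i ⬝ᵥ D P : ℤ) ≤ P.ord φ / m - kap y P)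
    {σ : Fin r → K} (σ0 : ∀ j, σ j ≠ 0) {l : Fin r → Fin k → ℤ} (hl : LinearIndependent ℤ l)
    (γ : Fin r → ℂ) {U : Pl F} (hU : ∀ b ∈ Rg s a t, b ∈ U.ring)
    (h1 : ∀ j, U.ord (hm t (σ j) (l j)) = 0) {α : ℝ} (α0 : 0 ≤ α)
    (nt : ¬ ∀ z : K, algebraMap K F z ∈ U.ring)
    (lc : ∀ Q, Lies (algebraMap K F) U Q → α < ld y m φ Q) :
    α + ∑ i, c i * U.ord (hm t (g i) (e i)) +
      ∑ j, (U.ord (hm t (σ j) (l j) - algebraMap ℂ F (γ j)) : ℝ) <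
        lt y t U - U.ord (hm t h₀ e₀) := by
  have b := L33.bd_ge x hy cx h0 e1 φ0 g0 hΛ hU
  rcases ldi x hy σ0 hl γ U h1 with ⟨tr, -⟩ | ⟨Q, q, w⟩
  · exact (nt tr).elim
  · have v := lc Q q
    have p : (1 : ℝ) ≤ U.ord (algebraMap K F Q.t) := by exact_mod_cast q.e_pos
    rw [q.ord, Int.cast_mul, mul_div_assoc] at b
    rw [ld] at v
    nlinarith [mul_nonneg (sub_nonneg.2 p) (α0.trans v.le)]

/-- the embedding dimension at the closed orbit -/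
theorem emb {q σ μ E : ℕ} {ε β : ℝ} {u : Finset K} {Λ Γ Γ' : BD K} {y : Fin (n + 1) → K} {h g : K}
    {δ b : Fin k → ℤ} {m : Ideal (Algebra.adjoin ℂ (u : Set K))} {p : Ideal (Rg s a t)}
    {l : Fin r → Fin k → ℤ} {w : Fin r → K} {e : Fin σ → Fin k → ℤ} {α : Fin σ → ℝ}
    (dy : Dy n q ε u Λ Γ Γ' y D s a h g δ b) (bs : Bs (n + 1) t s a _ m) (o : Orb t s a _ m p l w)
    (lc : Lc u y (Tt n u Λ) D s a m μ φ e α) (β0 : 0 ≤ β) (β1 : β ≤ 1) (ne : ∃ x ∈ m, x ≠ 0)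
    (ml : ∀ Q, Ov u Q → (∀ x ∈ m, x ≠ 0 → 0 < Q.ord (x : K)) → β < ld y μ φ Q) {B : ℝ}
    (hb : B + 1 - β ≤ ∑ i, α i + r) (em : Tg.EM (n + 1 + k) E 1 B) : Bx.Emd E (Rg s a t) p := by
  have x := bs.ext
  have hy := dy.fr
  have cx := dy.cox
  have e1 : Eqv (Tt n u Λ) D (cn K (n + 1)) _ _ := dy.cn ▸ dy.can
  have t0 := x.ind.ne_zero
  have w0 : ∀ j, w j ≠ 0 := fun j z => by
    obtain ⟨v, -, v1, v2⟩ := o.inv j
    exact v2 (by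
      have : (⟨w j * v, v1⟩ : Algebra.adjoin ℂ (u : Set K)) = 0 := Subtype.ext (by simp [z])
      rw [this]
      exact zero_mem _)
  have e2 := fun P h => dy.cn ▸ e1.2 P h
  refine em F (Rg s a t) p (zt y t) (hm t h δ * ∏ i, t i)
    (aff K F _ k y t x hy N _ D s a cx) (nor K F _ k y t x hy N _ D s a cx) o.max (zt_frm x hy)
    (mul_ne_zero (hm_ne t0 e1.1 _) (Finset.prod_ne_zero_iff.2 fun i _ => t0 i))
    (fun R ⟨q, _, h⟩ => ?_) (fun q _ R h => ?_) fun U hU => ?_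
  · rw [L33.ld_eq t0 e1.1]
    exact L33.pd_one x hy cx e1.1 e2 ⟨q, h⟩
  · rw [L33.ld_eq t0 e1.1]
    exact kly_of lar neg dwn hor n k N K F u Λ Γ Γ' D s a y t _ _ dy.dat cx x hy dy.cn e1 R
      fun z hz => (h ⟨z, hz⟩).1
  have hU' : ∀ z ∈ Rg s a t, z ∈ U.ring := fun z hz => (hU ⟨z, hz⟩).1
  have pos : ∀ z ∈ p, (z : F) ≠ 0 → 0 < U.ord (z : F) := fun z hz z0 =>
    (Cb.mx_iff.1 ((Cb.rd_eq_zero (hU z).1).1 ((hU z).2.1 hz))).resolve_left z0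
  have bp : ∀ z ∈ m, ∃ b ∈ p, (b : F) = algebraMap K F z := fun z hz =>
    have i := O15.ie_base bs.zero hz
    ⟨⟨_, mem_Rg t0 i.1⟩, o.hom _ _ i _ rfl, hm_deg0 t _⟩
  have bo : ∀ z ∈ m, z ≠ 0 → 0 < U.ord (algebraMap K F z) := fun z hz z0 => by
    obtain ⟨b, b1, b2⟩ := bp z hz
    exact b2 ▸ pos b b1 (b2.trans_ne ((map_ne_zero _).2 fun e => z0 (Subtype.ext e)))
  obtain ⟨x₀, x1, x0⟩ := ne
  obtain ⟨X₀, X1, X2⟩ := bp x₀ x1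
  let X : Fin σ → Rg s a t := fun i => ⟨_, mem_Rg t0 (lc.van i).1⟩
  let W : Fin r → Rg s a t := fun j => ⟨_, sub_mem (mem_Rg t0 (o.mem j)) (one_mem _)⟩
  have W1 : ∀ j, W j ∈ p := fun j => o.one j _ rfl
  have W2 : ∀ j, (W j : F) = hm t (w j) (l j) - algebraMap ℂ F 1 := fun j => by simp [W]
  have h1 : ∀ j, U.ord (hm t (w j) (l j)) = 0 := fun j =>
    L33.ord_unit one_ne_zero (W2 j ▸ (hU (W j)).1) (W2 j ▸ (hU (W j)).2.1 (W1 j))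
  have key := ld_gt (g := fun _ => 1) (e := e) (c := α) (m := μ) x hy cx e1.1 e2 lc.ne
    (fun _ => one_ne_zero) (fun P hP => by simpa using lc.le P hP) w0 o.ind (fun _ => 1) hU' h1 β0
    (fun tr => (bo x₀ x1 x0).ne' (Trv.ord (φ := algebraMap K F) tr _)) fun Q q =>
      ml Q (Tz.ov_of grd x hy cx hU' q) fun z hz z0 => by
        have := bo z hz z0
        rw [q.ord] at this
        exact pos_of_mul_pos_left (mul_comm _ (Q.ord (z : K)) ▸ this) q.e_pos.le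
  have v0 := (ldi' x hy w0 o.ind (fun _ => 1) U h1).1
  let Z : Option (Fin σ ⊕ Fin r) → Rg s a t := fun i => i.elim X₀ (Sum.elim X W)
  have Z1 : ∀ i, Z i ∈ p := by
    rintro (_ | i | j)
    exacts [X1, o.hom _ _ (lc.van i) _ rfl, W1 j]
  have Z0 : ∀ i, (Z i : F) ≠ 0 := by
    rintro (_ | i | j)
    exacts [X2.trans_ne ((map_ne_zero _).2 fun e => x0 (Subtype.ext e)),
      hm_ne t0 one_ne_zero _, (W2 j).trans_ne (v0 j)]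
  obtain ⟨i, hi⟩ := Finite.exists_min fun i => U.ord (Z i : F)
  have pos' : (1 : ℝ) ≤ U.ord (Z i : F) := by exact_mod_cast pos _ (Z1 i) (Z0 i)
  refine ⟨Z i, Z1 i, fun z => Z0 i (by rw [z]; rfl), ?_⟩
  rw [L33.ld_eq t0 e1.1]
  have s1 : ∑ j, α j * U.ord (Z i : F) ≤ ∑ j, α j * U.ord (hm t (1 : K) (e j)) :=
    Finset.sum_le_sum fun j _ => mul_le_mul_of_nonneg_left
      (by exact_mod_cast hi (some (.inl j))) (lc.nn j)
  have s2 : ∑ _j : Fin r, (U.ord (Z i : F) : ℝ) ≤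
      ∑ j, (U.ord (hm t (w j) (l j) - algebraMap ℂ F 1) : ℝ) :=
    Finset.sum_le_sum fun j _ => by rw [← W2]; exact_mod_cast hi (some (.inr j))
  rw [← Finset.sum_mul] at s1
  rw [Finset.sum_const, Finset.card_univ, Fintype.card_fin, nsmul_eq_mul] at s2
  nlinarith [mul_le_mul_of_nonneg_right hb (zero_le_one.trans pos'),
    mul_nonneg (sub_nonneg.2 β1) (sub_nonneg.2 pos')]

/-- the theorem on the tier -/
theorem tier {q ρ c σ μ : ℕ} {ε β : ℝ} {u : Finset K} {Λ Γ Γ' : BD K} {y : Fin (n + 1) → K}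
    {h g : K} {δ b : Fin k → ℤ} {m : Ideal (Algebra.adjoin ℂ (u : Set K))}
    {e : Fin σ → Fin k → ℤ} {α : Fin σ → ℝ} {D' : Pl K → Fin ρ → ℤ} (k2 : 2 ≤ k)
    (X : Dy n q ε u Λ Γ Γ' y D s a h g δ b) (hm : m.IsMaximal)
    (L : Lc u y (Tt n u Λ) D s a m μ φ e α) (c0 : 0 < c)
    (sp : ∀ i, ∃ (ψ : K) (e : Fin ρ → ℤ), ψ ≠ 0 ∧
      ∀ P ∈ Tt n u Λ, c * D P i = P.ord ψ + e ⬝ᵥ D' P) (β0 : 0 ≤ β) (β1 : β ≤ 1)
    (ne : ∃ x ∈ m, x ≠ 0)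
    (ml : ∀ Q, Ov u Q → (∀ x ∈ m, x ≠ 0 → 0 < Q.ord (x : K)) → β < ld y μ φ Q)
    (lt : ((n + 1 + ρ : ℕ) : ℝ) ≤ 2 + β + ∑ i, α i) :
    ∃ (N' : ℕ) (s' : Fin N' → K) (a' : Fin N' → Fin k → ℤ) (γ : K), N' ≤ k + (2 * (n + 1) + 3) ∧
      Nz _ m γ ∧ ∀ e ψ, ψ ≠ 0 →
        (ψ ∈ Sp s' a' e ↔ ∀ P ∈ Tt n u Λ, P.ord γ = 0 → 0 ≤ P.ord ψ + e ⬝ᵥ D P) := by
  obtain ⟨F, _, _, _, _, t, x⟩ := ext K (n + 1) k X.dat.ff
  have B : Bs (n + 1) t s a _ m :=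
    ⟨x, T23.zero X.dat X.cox, Subalgebra.fg_adjoin_finset u, hm⟩
  obtain ⟨p, r, l, w, O⟩ := orb K F (n + 1) k N t s a _ m B
  have rk := rnk K F (n + 1) k N t s a _ m B p r ρ c l w _ D D' O X.cox c0 sp
  have E := emb X B O L β0 β1 ne ml (by
      have : (k : ℝ) ≤ r + ρ := by exact_mod_cast rk
      push_cast at lt ⊢
      linarith) (T3.em (d := n + 1 + k) (by omega))
  obtain ⟨N', s', a', γ, le, nz, H⟩ :=
    genr3 cnt fim40 noe K F (n + 1) k N t s a _ m B p r _ l w O E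
  have γ0 : γ ≠ 0 := by
    rintro rfl
    exact nz.2 (zero_mem m)
  exact ⟨N', s', a', γ, by omega, nz, fun e ψ ψ0 => (H e ψ).trans (T23.loc X.cox γ0 nz.1 e ψ0)⟩

end Vale.Agent.P283R.Lx.M3
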