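import Vale.Agent.P283R.Lx.St
import Vale.Agent.P283M.Br.Amp
import Vale.Agent.P283M.Br.Mdc
import Vale.Agent.P283M.Br.Mod

/-!
# P283R, block LX: from an lc pair to the places
-/

set_option linter.all false

open Set CategoryTheory AlgebraicGeometry

noncomputable section

namespace Vale.Agent.P283R.Lx

open Vale.Agent.P287D Vale.Agent.P283M Vale.Agent.P297Z
open Sl Sl.Var

/-- **OFL** -/
theorem ofl : OFL := by
  intro n N Y W ω Λ φ h N1 h0 fr hp hφ Q y hy hQ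
  have c : (N : ℝ) ≠ 0 := Nat.cast_ne_zero.2 N1.ne'
  obtain ⟨M, E, rfl, e⟩ := P283M.Br.mod Y.o Q y hQ
  have o := (P283M.Br.plc Y.o M.Y M.pull (P283M.Br.mdc Y.o M).1 E).2 Q e
  have := ((pair_iff _ _ ω Λ).1 hp).2.2 M E hy N φ N1 (hφ _ hy)
  rw [fr _ _ E Q e o, o] at this
  rw [Pl.ord_div _ (hφ _ hy).1 (pow_ne_zero N h0), Pl.ord_pow]
  push_cast
  have k : ((Q.ord φ : ℝ) - N * Q.ord h) / N = Q.ord φ / N - Q.ord h := by field_simp
  rw [k]
  have t : (0 : ℝ) ≤ 1 + (cn Y.K n Q + Q.ord h - Q.ord φ / N) := this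
  linarith

end Vale.Agent.P283R.Lx
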