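import Vale.Agent.P283R.Lx.St
import Vale.Agent.P283R.Sl.Mb
import Vale.Agent.P283R.T3.All

/-!
# P283R, block LX: from the membership to the bounded complements
-/

namespace Vale.Agent.P283R

theorem Lx.ema : Lx.EMA := fun _ hd => T3.em0 (by omega)

namespace Sl

open Var

theorem on_lx_of (h : Lx.MEM) :
    On fun _ _ _ f ω B z => FanoType f ω ∧ NefOver f (-logCan ω B) ∧ LowComplexity f ω B z := by
  intro d hd ε hε R hR
  obtain ⟨n, hn, H⟩ := on_gen' (2 * d + 3) d hd ε hε R hR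
  exact ⟨n, hn, fun X Z f ω B z a b c e s t u => H X Z f ω B z a b c e s t
    ⟨u.1, u.2.1, h d ε X Z f ω B z hd hε a b c s u.1 u.2.1 t u.2.2⟩⟩

end Sl

end Vale.Agent.P283R
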