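import Vale.Agent.P283R.Lx.St

/-!
# P283R, block LX: the rank of the lattice of the units
-/

set_option linter.all false

open Set

noncomputable section

namespace Vale.Agent.P283R.Lx

open Vale.Agent.P287D Vale.Agent.P283M Vale.Agent.P283R.Cx

theorem rnk : RNK := fun K F _ _ _ _ _ _ d k N t s a A m bs p r ρ c l w T D D' o cx c0 h => by
  choose ψ e ψ0 he using h
  let E : (Fin k → ℤ) →ₗ[ℤ] (Fin ρ → ℤ) := Fintype.linearCombination ℤ e
  have key : ∀ n ∈ LinearMap.ker E, (c : ℤ) • n ∈ Submodule.span ℤ (range l) := fun n hn => by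
    have z : ∑ i, n i • e i = 0 := hn
    have g0 : ∏ i, ψ i ^ n i ≠ 0 := Finset.prod_ne_zero_iff.2 fun i _ => zpow_ne_zero _ (ψ0 i)
    have v : ∀ P ∈ T, P.ord (∏ i, ψ i ^ n i) = ((c : ℤ) • n) ⬝ᵥ D P := fun P hP => by
      have b := congrArg (· ⬝ᵥ D' P) z
      simp only [sum_dotProduct, smul_dotProduct, zero_dotProduct, smul_eq_mul] at b
      rw [P.ord_prod _ fun i _ => zpow_ne_zero _ (ψ0 i), dotProduct,
        Finset.sum_congr rfl fun i _ => show ((c : ℤ) • n) i * D P i =
          P.ord (ψ i ^ n i) + n i * e i ⬝ᵥ D' P by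
            rw [Pi.smul_apply, smul_eq_mul, mul_right_comm, he i P hP,
              show P.ord (ψ i ^ n i) = n i * P.ord (ψ i) from P297Z.Pl.ord_zpow _ _ _]
            ring, Finset.sum_add_distrib, b, add_zero]
    refine o.spn _ (∏ i, ψ i ^ n i)⁻¹ ((cx.sec _ _ (inv_ne_zero g0)).2 fun P hP => ?_) fun q =>
      q.2 _ ((cx.sec _ _ g0).2 fun P hP => ?_) ?_
    · rw [show P.ord (∏ i, ψ i ^ n i)⁻¹ = -P.ord (∏ i, ψ i ^ n i) from P297Z.Pl.ord_inv _ _, v P hP,
        neg_add_cancel]
    · rw [v P hP, neg_dotProduct, add_neg_cancel]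
    · rw [inv_mul_cancel₀ g0]
      exact ⟨one_mem _, (Ideal.ne_top_iff_one _).1 bs.max.ne_top⟩
  have a1 := E.rank_range_add_rank_ker
  have a2 : Module.finrank ℤ (LinearMap.ker E) ≤ Module.finrank ℤ (Submodule.span ℤ (range l)) :=
    LinearMap.finrank_le_finrank_of_injective
      (f := ((c : ℤ) • (LinearMap.ker E).subtype).codRestrict _ fun n => key n n.2)
      fun x y z => Subtype.ext (smul_right_injective _ (Int.natCast_ne_zero.2 c0.ne')
        (congrArg Subtype.val z))
  have a3 : Module.finrank ℤ (Submodule.span ℤ (range l)) ≤ r :=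
    (finrank_range_le_card (R := ℤ) l).trans_eq (Fintype.card_fin r)
  have a4 : Module.finrank ℤ (LinearMap.range E) ≤ ρ := by
    simpa using Submodule.finrank_le (LinearMap.range E)
  rw [← Module.finrank_eq_rank, ← Module.finrank_eq_rank, ← Module.finrank_eq_rank] at a1
  have a5 : Module.finrank ℤ (LinearMap.range E) + Module.finrank ℤ (LinearMap.ker E) = k := by
    simpa using (by exact_mod_cast a1 : _ = Module.finrank ℤ (Fin k → ℤ))
  omega

end Vale.Agent.P283R.Lx
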