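import Vale.Agent.P283R.Lx.St
import Vale.Agent.P283R.Cx.Ext
import Vale.Agent.P283R.Cx.Bak
import Vale.Agent.P287D.On.Lf

/-!
# P283R, block LX: the theorem on the tier from the rows
-/

open Set

noncomputable section

namespace Vale.Agent.P283R.Lx

open Vale.Agent.P287D Vale.Agent.P283M Vale.Agent.P283R.Cx Vale.Agent.P297Z

namespace T23

variable {K : Type} [Field K] [Algebra ℂ K] {n k N : ℕ} {u : Finset K} {Λ Γ Γ' : BD K}
  {D : Pl K → Fin k → ℤ} {s : Fin N → K} {a : Fin N → Fin k → ℤ}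

theorem ord_nn {x : K} (hx : x ∈ Algebra.adjoin ℂ (u : Set K)) {P : Pl K} (o : Ov u P) :
    0 ≤ P.ord x :=
  Pl.ord_nonneg_of_mem _ (On.adjoin_le_val P.con (fun b hb => o b hb) x hx)

/-- the sections of degree zero are the functions on the base -/
theorem zero (h : Dat n u Λ Γ Γ') (c : Cox (Tt n u Λ) D s a) (x : K) :
    x ∈ Algebra.adjoin ℂ (u : Set K) ↔ x ∈ Sp s a 0 := by
  rcases eq_or_ne x 0 with rfl | x0
  · exact iff_of_true (zero_mem _) (zero_mem _)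
  refine ⟨fun hx => (c.sec 0 x x0).2 fun P hP => ?_, fun hx => h.con x fun P o => ?_⟩
  · rw [zero_dotProduct, add_zero]
    exact ord_nn hx hP.1
  · exact (Pl.ord_nonneg_iff _ x0).1 (Bak.reg h c x0 hx o)

/-- the sections after the localisation -/
theorem loc (c : Cox (Tt n u Λ) D s a) {g : K} (g0 : g ≠ 0)
    (hg : g ∈ Algebra.adjoin ℂ (u : Set K)) (e : Fin k → ℤ) {ψ : K} (ψ0 : ψ ≠ 0) :
    (∃ j : ℕ, g ^ j * ψ ∈ Sp s a e) ↔
      ∀ P ∈ Tt n u Λ, P.ord g = 0 → 0 ≤ P.ord ψ + e ⬝ᵥ D P := by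
  have key : ∀ (j : ℕ) (P : Pl K), P.ord (g ^ j * ψ) = j * P.ord g + P.ord ψ := fun j P => by
    rw [Pl.ord_mul _ (pow_ne_zero _ g0) ψ0, Pl.ord_pow]
  constructor
  · rintro ⟨j, hj⟩ P hP h0
    have := (c.sec e _ (mul_ne_zero (pow_ne_zero _ g0) ψ0)).1 hj P hP
    rwa [key, h0, mul_zero, zero_add] at this
  · intro H
    obtain ⟨j, hj⟩ := ((c.fin ψ e).image fun P => (P.ord ψ + e ⬝ᵥ D P).natAbs).bddAbove
    refine ⟨j, (c.sec e _ (mul_ne_zero (pow_ne_zero _ g0) ψ0)).2 fun P hP => ?_⟩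
    rw [key, add_assoc]
    have nn := ord_nn hg hP.1
    rcases nn.eq_or_lt with h0 | h0
    · rw [← h0, mul_zero, zero_add]
      exact H P hP h0.symm
    · have j0 : (j : ℤ) ≤ j * P.ord g := le_mul_of_one_le_right (Int.natCast_nonneg j) h0
      by_cases z : P.ord ψ + e ⬝ᵥ D P = 0
      · omega
      · have : (P.ord ψ + e ⬝ᵥ D P).natAbs ≤ j := hj ⟨P, ⟨hP, z⟩, rfl⟩
        omega

end T23

open T23 in
/-- **TOPT** -/
theorem topt : TOPT := by
  intro orb gen emb rnk ema K _ _ n k N q ρ c σ μ ε u Λ Γ Γ' y D s a h g φ δ b m e α D' q0 ε0 k2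
    X hm L c0 sp lt
  obtain ⟨F, _, _, _, _, t, x⟩ := ext K (n + 1) k X.dat.ff
  have B : Bs (n + 1) t s a _ m :=
    ⟨x, zero X.dat X.cox, Subalgebra.fg_adjoin_finset u, hm⟩
  obtain ⟨p, r, l, w, O⟩ := orb K F (n + 1) k N t s a _ m B
  have rk := rnk K F (n + 1) k N t s a _ m B p r ρ c l w _ D D' O X.cox c0 sp
  have E := emb K F n k N q r σ μ (n + 1 + k + 1) ε u Λ Γ Γ' y D s a h g φ δ b t m p l w e α q0 ε0
    k2 X B O L (by
      have : (k : ℝ) ≤ r + ρ := by exact_mod_cast rk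
      push_cast at lt ⊢
      linarith) (ema _ (by omega))
  obtain ⟨N', s', a', γ, le, nz, H⟩ := gen K F (n + 1) k N t s a _ m B p r _ l w O E
  have γ0 : γ ≠ 0 := by
    rintro rfl
    exact nz.2 (zero_mem m)
  exact ⟨N', s', a', γ, by omega, nz, fun e ψ ψ0 => (H e ψ).trans (loc X.cox γ0 nz.1 e ψ0)⟩

end Vale.Agent.P283R.Lx
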