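import Vale.Agent.P283R.Lx.St
import Vale.Agent.P283R.Cx.Gv

/-!
# P283R, block LX: the scheme side
-/

open Set CategoryTheory AlgebraicGeometry

noncomputable section

namespace Vale.Agent.P283R.Lx

open Vale.Agent.P289 (Pt St toRat DForm dimension)
open Vale.Agent.P287D Vale.Agent.P283M.Stm Vale.Agent.P283M.Stm.Var Vale.Agent.P297Z
open Vale.Agent.P283M Vale.Agent.P283M.Br Vale.Agent.P283R.Sch Vale.Agent.P283R.Cox

theorem least' {X : Sl.Var} (B : X.QDiv) : ∃ r : ℕ, 0 < r ∧ (∀ E, ∃ m : ℤ, r * B.coeff E = m) ∧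
    ∀ q : ℕ, (∀ E, ∃ m : ℤ, q * B.coeff E = m) → r ∣ q := by
  classical
  obtain ⟨r, h1, h2⟩ := Sl.least B
  refine ⟨r, Nat.pos_of_dvd_of_pos (h2 (∏ E ∈ B.support, (B E).den) fun E => ?_)
    (Finset.prod_pos fun E _ => (B E).den_pos), h1, h2⟩
  by_cases z : B E = 0
  · exact ⟨0, by simp [z]⟩
  · obtain ⟨w, hw⟩ := Finset.dvd_prod_of_mem (fun E => (B E).den) (Finsupp.mem_support_iff.2 z)
    refine ⟨w * (B E).num, ?_⟩
    rw [hw]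
    push_cast
    rw [mul_comm (_ : ℚ) (w : ℚ), mul_assoc, Rat.den_mul_eq_num]

variable {X Z : Var} {n k : ℕ} {f : X.X ⟶ Z.X} {z : Pt Z.X} {V W : Z.X.Opens} {u : Finset X.K}
  {Λ : BD X.K}

theorem un_ord {P : Pl X.K} {E : X.PrimeDiv} (dm : Dom P.ring E.1) {g : X.K} (g0 : g ≠ 0) :
    UnAt g E.1 ↔ P.ord g = 0 :=
  ⟨dm.ord, fun h => let w := (Pl.ord_eq_zero_iff _ g0).1 h
    ⟨g0, (is_of_dom dm g).1 w.1, (is_of_dom dm _).1 w.2⟩⟩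

/-- the ring of the sections over the smaller neighbourhood -/
theorem gen_W (bs : Base f V z u)
    (on : ∀ (P : Pl X.K) (x : Pt X.X), x ∈ f ⁻¹ᵁ V → Dom P.ring x → (On n Λ P ↔ x.CodimOne))
    (D : Fin k → X.PrimeDiv →₀ ℤ) {N : ℕ} {s : Fin N → X.K} {a : Fin N → Fin k → ℤ} {γ : X.K}
    (γ0 : γ ≠ 0) (le : W ≤ V) (hW : ∀ x ∈ f ⁻¹ᵁ V, x ∈ f ⁻¹ᵁ W ↔ UnAt γ x)
    (H : ∀ e ψ, ψ ≠ 0 → (ψ ∈ Cx.Sp s a e ↔ ∀ P ∈ Cx.Tt n u Λ, P.ord γ = 0 →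
      0 ≤ P.ord ψ + e ⬝ᵥ fun i => up (D i) P)) :
    Sl.GradedGen N fun m => {φ : X.K | φ ≠ 0 →
      ∀ E : X.PrimeDiv, E.1 ∈ f ⁻¹ᵁ W → 0 ≤ ord φ E + ∑ i, m i * D i E} := by
  refine (congrArg (Sl.GradedGen N) (funext fun m => Set.ext fun φ => ?_)).mp (Cx.gen_of_sp s a)
  by_cases z : φ = 0
  · exact iff_of_true (z ▸ zero_mem (Cx.Sp s a m)) fun c => (c z).elim
  · have w := all_iff bs on (p := fun E => E.1 ∈ f ⁻¹ᵁ W → 0 ≤ ord φ E + ∑ i, m i * D i E)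
      (q := fun P => P.ord γ = 0 → 0 ≤ P.ord φ + cf (fun i => up (D i)) m P)
        fun P E c dm => by rw [cf_eq D m dm, ord_eq dm, hW _ c, un_ord dm γ0]
    exact (H m φ z).trans ⟨fun t _ E c => w.2 (fun P b c => t P ⟨b, c⟩) E (le c) c,
      fun t P c => w.1 (fun E _ => t z E) P c.1 c.2⟩

theorem span_of (bs : Base f V z u)
    (on : ∀ (P : Pl X.K) (x : Pt X.X), x ∈ f ⁻¹ᵁ V → Dom P.ring x → (On n Λ P ↔ x.CodimOne))
    {D : Fin k → X.PrimeDiv →₀ ℤ} {G : X.PrimeDiv → ℚ} (h : InSpan (f ⁻¹ᵁ V) D G) (q r : ℕ)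
    (C : X.PrimeDiv →₀ ℤ) (e : ∀ E, q * G E = r * C E) : ∃ (ψ : X.K) (m : Fin k → ℤ), ψ ≠ 0 ∧
      ∀ P ∈ Cx.Tt n u Λ, r * up C P = P.ord ψ + m ⬝ᵥ fun i => up (D i) P := by
  obtain ⟨m, φ, φ0, h⟩ := h
  refine ⟨φ ^ q, (q : ℤ) • m, pow_ne_zero _ φ0, fun P t => (all_iff bs on
    (q := fun P => r * up C P = P.ord (φ ^ q) + ((q : ℤ) • m) ⬝ᵥ fun i => up (D i) P)
    (p := fun E => (r : ℤ) * C E = q * (ord φ E + ∑ i, m i * D i E))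
    fun P E _ dm => ?_).1 (fun E c => ?_) P t.1 t.2⟩
  · rw [up_eq _ dm, Pl.ord_pow, smul_dotProduct, smul_eq_mul, ← mul_add, ord_eq dm,
      ← cf_eq D m dm]
    rfl
  · have := e E
    rw [h E c] at this
    exact_mod_cast this.symm

theorem core (ht : TIER) {ε : ℝ} {ω : DForm ℂ X.K (n + 1)} {B L : X.QDiv} {μ ρ r q : ℕ} {φ : X.K}
    {S : Finset X.PrimeDiv} {D' : Fin ρ → X.PrimeDiv →₀ ℤ} (hε : 0 < ε)
    (hdim : dimension X.str = (n + 1 : ℕ)) (hω : ω.Nonzero) (hB : Pair (ε ≤ ·) ⊤ ω B)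
    (hf : Contraction f) (hF : FanoType f ω) (hn : NefOver f (-logCan ω B))
    (hz : IsClosed ({z} : Set (Pt Z.X))) (hV : IsAffineOpen V) (zV : z ∈ V)
    (hb : ∀ u, Base f V z u → ∃ m : Ideal (Algebra.adjoin ℂ (u : Set X.K)), m.IsMaximal ∧
      ∀ g, Nz _ m g → ∃ W : Z.X.Opens, IsAffineOpen W ∧ z ∈ W ∧ W ≤ V ∧
        ∀ x ∈ f ⁻¹ᵁ V, x ∈ f ⁻¹ᵁ W ↔ UnAt g x)
    (ho : ∀ h, h ≠ 0 → Br.Frm ω h → ∀ (Q : Pl X.K) (x : Pt X.X), x ∈ f ⁻¹ᵁ V → Dom Q.ring x →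
      0 ≤ 1 + cn X.K (n + 1) Q - (Q.ord (φ / h ^ μ) : ℝ) / μ)
    (hL : ∀ E : X.PrimeDiv, E.1 ∈ f ⁻¹ᵁ V → 0 ≤ L E) (μ0 : 0 < μ)
    (hφ : ∀ x ∈ f ⁻¹ᵁ V, LocalEq (logCan ω L) μ φ x) (r0 : 0 < r)
    (hS : ∀ E ∈ S, Pt.map f E.1 ⤳ z ∧ InSpan (f ⁻¹ᵁ V) D' (Finsupp.single E (r : ℚ)))
    (hK' : InSpan (f ⁻¹ᵁ V) D' fun E => r * logCan ω 0 E)
    (hB' : InSpan (f ⁻¹ᵁ V) D' fun E => r * B E)
    (lt : ((n + 1 : ℕ) + ρ : ℚ) < 2 + ∑ E ∈ S, L E) (q0 : 0 < q) (hq : ∀ E, ∃ m : ℤ, q * B E = m)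
    (hq' : ∀ q' : ℕ, (∀ E, ∃ m : ℤ, q' * B E = m) → q ∣ q') :
    ∃ (k N : ℕ) (W : Z.X.Opens) (D : Fin k → X.PrimeDiv →₀ ℤ), N ≤ k + (2 * (n + 1) + 3) ∧
      IsAffineOpen W ∧ z ∈ W ∧ (Sl.GradedGen N fun m => {φ : X.K | φ ≠ 0 →
        ∀ E : X.PrimeDiv, E.1 ∈ f ⁻¹ᵁ W → 0 ≤ ord φ E + ∑ i, m i * D i E}) ∧
      (∀ q : ℕ, (∀ E, ∃ m : ℤ, q * B E = m) →
        InSpan (f ⁻¹ᵁ W) D fun E => q * logCan ω B E) ∧ InSpan (f ⁻¹ᵁ W) D (logCan ω 0) := by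
  classical
  have hK := ffd X _ hdim
  obtain ⟨j, j0, fr⟩ := frm X _ hK ω hω
  choose c hc using hq
  let T : Fin S.card → X.PrimeDiv := fun i => S.equivFin.symm i
  have TS : ∀ i, T i ∈ S := fun i => (S.equivFin.symm i).2
  have sT : ∀ g : X.PrimeDiv → ℚ, ∑ i, g (T i) = ∑ E ∈ S, g E := fun g =>
    (S.equivFin.symm.sum_comp fun E => g E).trans (S.sum_coe_sort g)
  let D₀ : X.PrimeDiv →₀ ℤ := Finsupp.ofSupportFinite _ (P283R.Br.form_fin hK fr)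
  let D₁ : X.PrimeDiv →₀ ℤ := Finsupp.ofSupportFinite c (B.support.finite_toSet.subset fun E e =>
    Finsupp.mem_support_iff.2 fun z => e (by simpa [z] using (hc E).symm))
  have d0 : ∀ E, D₀ E = formOrd ω (RingEquiv.refl X.K) E := fun _ => rfl
  have d1 : ∀ E, D₁ E = c E := fun _ => rfl
  let D : Fin (S.card + 1 + 1) → X.PrimeDiv →₀ ℤ :=
    Fin.cons D₀ (Fin.cons D₁ fun i => .single (T i) 1)
  have o : ∀ E : X.PrimeDiv, ord 1 E = 0 := fun E =>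
    let ⟨P, _, w⟩ := pl_of plc E; (w 1).trans (Pl.ord_one _)
  have e : ∀ (x y : ℤ) E, ∑ i, (Fin.cons x (Fin.cons y 0) : Fin (S.card + 1 + 1) → ℤ) i * D i E =
      x * formOrd ω (RingEquiv.refl X.K) E + y * c E := fun x y E => by
    simp only [D, Fin.sum_univ_succ, Fin.cons_zero, Fin.cons_succ, Pi.zero_apply, zero_mul,
      Finset.sum_const_zero, add_zero, d0, d1]
  have h2 : ∀ W, InSpan W D (logCan ω 0) := fun W =>
    ⟨Fin.cons 1 (Fin.cons 0 0), 1, one_ne_zero, fun E _ => by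
      rw [o, e, logCan]
      simp⟩
  have h3 : InSpan (f ⁻¹ᵁ V) D fun E => q * B E :=
    ⟨Fin.cons 0 (Fin.cons 1 0), 1, one_ne_zero, fun E _ => by
      rw [o, e]
      simpa using hc E⟩
  obtain ⟨u, bs⟩ := basV hf hz hV zV
  obtain ⟨Λ, Γ, Γ', dt, on, b, b', nf, -⟩ := dataW hK hω hB hf hF bs
  obtain ⟨N, h1⟩ := schU Cx.ut hdim hω hf hF hz hV zV D
  obtain ⟨s, a, π, ci⟩ := cg_of bs on h1
  have s1 : Cox.Sp n u Λ _ (cn X.K (n + 1)) := sp_of bs on (h2 _) j0 fun P E _ dm => by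
    rw [← fr X _ E P (is_of_dom dm) (ord_eq dm), logCan]
    simp
  have s2 : Cox.Sp n u Λ _ ((q : ℝ) • -dsc (n + 1) Γ) :=
    sp_of bs on h3 one_ne_zero fun P E c dm => by simp [b' P E c dm]
  have s3 : ∀ P, Ov u P → On n Λ P → dsc (n + 1) Γ P ≤ 0 :=
    (all_iff bs on (p := fun E => 0 ≤ B E) fun P E c dm => by
      rw [b' P E c dm, neg_nonpos, Rat.cast_nonneg]).1 fun E _ => hB.1 E trivial
  obtain ⟨s, a, π, h, s0⟩ := Cx.Gn.shift ci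
  have x := Cx.Gn.coxY Cx.big dt h s1 s0
  obtain ⟨h₁, e₁, e'⟩ := Cx.Ad.eqv s1
  obtain ⟨g₁, b₁, e''⟩ := Cx.Ad.eqv s2
  obtain ⟨y, Δ, hy, hcn⟩ := Cb.exists_cn dt.ff
  have Y : Cx.Dy n q ε u Λ Γ Γ' y _ s a h₁ g₁ e₁ b₁ := ⟨dt, ⟨Δ, hy⟩, hcn, x, hcn ▸ e', e'',
    fun P t => s3 P t.1 t.2, b, fun _ => Br.klr dt dt.dn.neg (nf hn)⟩
  obtain ⟨m, mx, bas⟩ := hb u bs
  have nz : ∀ g, Nz _ m g → g ≠ 0 := fun g ⟨_, w⟩ g0 => w (by
    subst g0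
    exact m.zero_mem)
  have TW : ∀ i (W : Z.X.Opens), z ∈ W → (T i).1 ∈ f ⁻¹ᵁ W := fun i W zW =>
    (hS _ (TS i)).1.mem_open W.isOpen zW
  obtain ⟨x₀, hx₀, -⟩ := bs.ctr ⊤ (fun _ => trivial) fun _ _ => trivial
  have φ0 := (hφ x₀ hx₀).1
  have dp : ∀ (i : Fin S.card) (P : Pl X.K), (Pi.single i.succ.succ (1 : ℤ) ⬝ᵥ
      fun i => up (D i) P) = up (.single (T i) 1) P := fun i P => by
    rw [single_dotProduct, one_mul]
    rfl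
  have lc : Lc u y (Cx.Tt n u Λ) (fun P i => up (D i) P) s a m μ (φ / j ^ μ)
      (fun i : Fin S.card => Pi.single i.succ.succ 1) fun i => (L (T i) : ℝ) := by
    refine ⟨μ0, div_ne_zero φ0 (pow_ne_zero _ j0), fun Q hQ => ?_,
      fun i => Rat.cast_nonneg.2 (hL _ (TW i V zV)), fun i => ⟨?_, fun ψ hψ w => ?_⟩,
      fun P t => ?_⟩
    · obtain ⟨x, hx, dm⟩ := bs.ctr Q.ring Q.con hQ
      have := ho j j0 fr Q x hx dm
      rwa [hcn] at this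
    · refine (x.sec _ _ one_ne_zero).2 fun P t => ?_
      obtain ⟨x, hx, dm⟩ := bs.ctr P.ring P.con t.1
      obtain ⟨E, rfl⟩ : ∃ E : X.PrimeDiv, E.1 = x := ⟨⟨x, (on P x hx dm).1 t.2⟩, rfl⟩
      rw [dp, up_eq _ dm, Pl.ord_one, Finsupp.single_apply]
      split_ifs <;> simp
    · rw [one_mul] at w
      obtain ⟨W, -, zW, -, hW⟩ := bas ψ w
      obtain ⟨P, is, -⟩ := pl_of plc (T i)
      have c := TW i V zV
      have := (x.sec _ _ (nz _ w)).1 hψ P ⟨fun a ha => (is.dom a (bs.reg a ha _ c)).1,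
        (on P _ c is.dom).2 (T i).2⟩
      rw [neg_dotProduct, dp, up_eq _ is.dom, is.dom.ord ((hW _ c).1 (TW i W zW)),
        Finsupp.single_eq_same] at this
      omega
    · obtain ⟨x, hx, dm⟩ := bs.ctr P.ring P.con t.1
      obtain ⟨E, rfl⟩ : ∃ E : X.PrimeDiv, E.1 = x := ⟨⟨x, (on P x hx dm).1 t.2⟩, rfl⟩
      have k1 := fr X _ E P (is_of_dom dm) (ord_eq dm)
      have k2 := (hφ _ hx).2 E (specializes_refl _)
      rw [ord_eq dm, logCan] at k2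
      have k3 : ∑ i, L (T i) * (Finsupp.single (T i) (1 : ℤ) E : ℤ) ≤ L E := by
        rw [sT fun E' => L E' * (Finsupp.single E' (1 : ℤ) E : ℤ)]
        simp only [Finsupp.single_apply, Int.cast_ite, Int.cast_one, Int.cast_zero, mul_ite,
          mul_one, mul_zero, Finset.sum_ite_eq']
        split_ifs
        exacts [le_rfl, hL E hx]
      have k4 : (μ : ℝ) ≠ 0 := Nat.cast_ne_zero.2 μ0.ne'
      simp only [dp]
      simp only [up_eq _ dm]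
      rw [Pl.ord_div _ φ0 (pow_ne_zero _ j0), Pl.ord_pow, ← hcn]
      have k2' := congrArg (Rat.cast : ℚ → ℝ) k2
      have k3' := (Rat.cast_le (K := ℝ)).2 k3
      push_cast at k2' k3' ⊢
      refine k3'.trans_eq ?_
      rw [k2', k1]
      field_simp
      ring
  obtain ⟨N', s', a', γ, le, hγ, H⟩ := ht X.K n _ N q ρ r _ μ ε u Λ Γ Γ' y _ s a h₁ g₁ _ e₁ b₁ m
    _ _ (fun P i => up (D' i) P) q0 hε (by omega) Y mx lc r0
    (Fin.cases (span_of bs on hK' 1 r D₀ fun E => by simp [logCan, d0])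
      (Fin.cases (span_of bs on hB' q r D₁ fun E => by rw [mul_left_comm, hc, d1])
        fun i => span_of bs on (hS _ (TS i)).2 1 r (.single (T i) 1) fun E => by
          simp only [Finsupp.single_apply]
          split_ifs <;> simp))
    (by rw [← sT] at lt; exact_mod_cast lt)
  obtain ⟨W, hW, zW, WV, hγ'⟩ := bas γ hγ
  refine ⟨_, N', W, D, le, hW, zW, gen_W bs on D (nz _ hγ) WV hγ' H, fun q' hq => ?_, h2 _⟩
  obtain ⟨w, rfl⟩ := hq' q' hq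
  refine ⟨Fin.cons (q * w) (Fin.cons w 0), 1, one_ne_zero, fun E _ => ?_⟩
  rw [o, e]
  simp only [logCan]
  push_cast
  rw [← hc]
  ring

end Vale.Agent.P283R.Lx

namespace Vale.Agent.P283R.Lx

open Sl

/-- **TOPS** -/
theorem tops : TOPS := by
  intro hb ho ht d ε X Z f ω B z hd hε hdim hω hB hf hF hn hz
    ⟨V, L, μ, φ, S, ρ, r, D', hV, zV, hL, μ0, hφ, r0, hS, hK', hB', lt⟩
  obtain ⟨n, rfl⟩ : ∃ n, d = n + 1 := ⟨d - 1, by omega⟩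
  obtain ⟨q, q0, hq, hq'⟩ := least' B
  obtain ⟨k, N, W, D, a, b, c, g, s, t⟩ := core (X := X.o) (Z := Z.o) ht hε hdim hω
    ((pair_iff _ _ ω B).1 hB) hf ((fanoType_iff f ω).1 hF) ((nefOver_iff f _).1 hn) hz hV zV
    (fun u bs => hb X Z f V z u hf hz bs) (fun h h0 fr => ho _ μ X _ ω L φ h μ0 h0 fr hL hφ)
    hL.1 μ0 hφ r0 hS hK' hB' lt q0 hq hq'
  exact ⟨k, N, W, D, a, b, c, g, s, .inr t⟩

end Vale.Agent.P283R.Lx
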