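import Vale.Agent.P283R.Lx.On
import Vale.Agent.P283R.Lx.Top
import Vale.Agent.P283R.Lx.Tops
import Vale.Agent.P283R.Lx.Orb
import Vale.Agent.P283R.Lx.Cnt
import Vale.Agent.P283R.Lx.Fim40
import Vale.Agent.P283R.Lx.Noe
import Vale.Agent.P283R.Lx.Emb
import Vale.Agent.P283R.Lx.Rnk
import Vale.Agent.P283R.Lx.Bas
import Vale.Agent.P283R.Lx.Ofl

/-!
# P283R, block LX: the assembly up to the row of the generators
-/

namespace Vale.Agent.P283R.Lx

theorem mem_of (g : GENR) : MEM := tops bas ofl (topt orb (g cnt fim40 noe) emb rnk ema)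

end Vale.Agent.P283R.Lx
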