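import Vale.Agent.P283R.Sl.Lx
import Vale.Agent.P283R.Sl.Ga
import Vale.Agent.P283R.Sl.Br
import Vale.Agent.P283R.Tg.St
import Vale.Agent.P283R.Cx.Sy
import Vale.Agent.P283M.Br.Brg

/-!
# P283R, block LX: complexity less than two, the statements

`A` is the ring of the functions on the base, `m` is the ideal of the point `z`, `p` is a point of
the closed orbit of the torus over `z` in the spectrum of the ring of the sections.
-/

open Set CategoryTheory AlgebraicGeometry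

noncomputable section

namespace Vale.Agent.P283R.Lx

open Vale.Agent.P287D Vale.Agent.P283M Vale.Agent.P283R.Cx

section defs

variable {K F : Type} [Field K] [Algebra ℂ K] [Field F] [Algebra ℂ F] [Algebra K F] {k N r : ℕ}

/-- a function on the base which does not vanish at the point -/
def Nz (A : Subalgebra ℂ K) (m : Ideal A) (x : K) : Prop := ∃ h : x ∈ A, (⟨x, h⟩ : A) ∉ m

/-- the homogeneous elements which vanish on the closed orbit -/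
def Ie (A : Subalgebra ℂ K) (m : Ideal A) (s : Fin N → K) (a : Fin N → Fin k → ℤ)
    (e : Fin k → ℤ) : Set K :=
  {φ | φ ∈ Sp s a e ∧ ∀ ψ ∈ Sp s a (-e), ¬ Nz A m (φ * ψ)}

/-- the base -/
structure Bs (d : ℕ) (t : Fin k → F) (s : Fin N → K) (a : Fin N → Fin k → ℤ)
    (A : Subalgebra ℂ K) (m : Ideal A) : Prop where
  ext : Ext K d t
  zero : ∀ x, x ∈ A ↔ x ∈ Sp s a 0
  fg : A.FG
  max : m.IsMaximal

/-- `p` is a point of the closed orbit, `l` is a basis of the degrees of the units on the orbit,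
the units `w j * t ^ l j` have the value one at `p` -/
structure Orb (t : Fin k → F) (s : Fin N → K) (a : Fin N → Fin k → ℤ) (A : Subalgebra ℂ K)
    (m : Ideal A) (p : Ideal (Rg s a t)) (l : Fin r → Fin k → ℤ) (w : Fin r → K) : Prop where
  max : p.IsMaximal
  ind : LinearIndependent ℤ l
  mem : ∀ j, w j ∈ Sp s a (l j)
  inv : ∀ j, ∃ v ∈ Sp s a (-l j), Nz A m (w j * v)
  one : ∀ j (x : Rg s a t), (x : F) = hm t (w j) (l j) - 1 → x ∈ p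
  spn : ∀ e, ∀ φ ∈ Sp s a e, φ ∉ Ie A m s a e → e ∈ Submodule.span ℤ (range l)
  hom : ∀ e, ∀ φ ∈ Ie A m s a e, ∀ x : Rg s a t, (x : F) = hm t φ e → x ∈ p

end defs

/-- a property of a graded ring over a point of the base -/
def ForB (q : ∀ (K F : Type) [Field K] [Algebra ℂ K] [Field F] [Algebra ℂ F] [Algebra K F]
    (_ k N : ℕ) (_ : Fin k → F) (_ : Fin N → K) (_ : Fin N → Fin k → ℤ) (A : Subalgebra ℂ K),
      Ideal A → Prop) : Prop :=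
  ∀ (K F : Type) [Field K] [Algebra ℂ K] [Field F] [Algebra ℂ F] [Algebra K F]
    [IsScalarTower ℂ K F] (d k N : ℕ) (t : Fin k → F) (s : Fin N → K) (a : Fin N → Fin k → ℤ)
    (A : Subalgebra ℂ K) (m : Ideal A), Bs d t s a A m → q K F d k N t s a A m

/-- **ORB**: the closed orbit -/
def ORB : Prop := ForB fun K _ _ _ _ _ _ _ k _ t s a A m =>
  ∃ (p : Ideal (Rg s a t)) (r : ℕ) (l : Fin r → Fin k → ℤ) (w : Fin r → K), Orb t s a A m p l w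

/-- **CNT**: the conormal space of the orbit -/
def CNT : Prop := ForB fun K F _ _ _ _ _ _ k _ t s a A m => ∀ (p : Ideal (Rg s a t)) (r E : ℕ)
  (l : Fin r → Fin k → ℤ) (w : Fin r → K), Orb t s a A m p l w → Bx.Emd E (Rg s a t) p →
    ∃ (n : ℕ) (b : Fin n → K) (c : Fin n → Fin k → ℤ), n + r ≤ E ∧ (∀ i, b i ∈ Ie A m s a (c i)) ∧
      ∀ e, ∀ φ ∈ Ie A m s a e, ∃ γ : Fin n → ℂ, ∃ x ∈ p ^ 2,
        (x : F) = hm t φ e - ∑ i, γ i • hm t (b i) (c i)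

/-- **FIM**: the homogeneous parts are finite modules over the part of degree zero -/
def FIM : Prop := ∀ (K : Type) [Field K] [Algebra ℂ K] (k N : ℕ) (s : Fin N → K)
  (a : Fin N → Fin k → ℤ) (e : Fin k → ℤ), ∃ (n : ℕ) (φ : Fin n → K), (∀ i, φ i ∈ Sp s a e) ∧
    ∀ x ∈ Sp s a e, ∃ c : Fin n → K, (∀ i, c i ∈ Sp s a 0) ∧ x = ∑ i, c i * φ i

/-- **NOE**: a finite projection for which the point is alone in its fibre -/
def NOE : Prop := ∀ (K : Type) [Field K] [Algebra ℂ K] (d : ℕ) (A : Subalgebra ℂ K) (m : Ideal A),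
  FF K d → A.FG → m.IsMaximal → ∃ τ : Fin (d + 1) → A, (∀ i, τ i ∈ m) ∧
    Module.Finite (Algebra.adjoin ℂ (range τ)) A ∧ ∃ n : ℕ, m ^ n ≤ Ideal.span (range τ)

/-- **GEN**: few generators after a localisation -/
def GEN : Prop := ForB fun K _ _ _ _ _ _ d k _ t s a A m => ∀ (p : Ideal (Rg s a t)) (r E : ℕ)
  (l : Fin r → Fin k → ℤ) (w : Fin r → K), Orb t s a A m p l w → Bx.Emd E (Rg s a t) p →
    ∃ (N' : ℕ) (s' : Fin N' → K) (a' : Fin N' → Fin k → ℤ) (g : K), N' ≤ E + d + 2 ∧ Nz A m g ∧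
      ∀ e φ, φ ∈ Sp s' a' e ↔ ∃ n : ℕ, g ^ n * φ ∈ Sp s a e

/-- **GENR** -/
def GENR : Prop := CNT → FIM → NOE → GEN

/-- **LGF**: the frame with the units of the orbit -/
def LGF : Prop := ForX fun K F _ _ _ _ _ _ k y t => ∀ (r : ℕ) (l : Fin r → Fin k → ℤ)
  (w : Fin r → K), LinearIndependent ℤ l → (∀ j, w j ≠ 0) → ∀ U : Pl F,
    (∀ j, 0 < U.ord (hm t (w j) (l j) - 1)) →
    ((∀ x : K, algebraMap K F x ∈ U.ring) ∧
      ∑ j, (U.ord (hm t (w j) (l j) - 1) : ℝ) ≤ lt y t U) ∨ ∃ Q, Lies (algebraMap K F) U Q ∧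
      U.ord (algebraMap K F Q.t) * (1 + kap y Q) + ∑ j, (U.ord (hm t (w j) (l j) - 1) : ℝ) ≤
        lt y t U

/-- **RNK**: the rank of the lattice of the units -/
def RNK : Prop := ForB fun K _ _ _ _ _ _ _ k _ t s a A m => ∀ (p : Ideal (Rg s a t)) (r ρ c : ℕ)
  (l : Fin r → Fin k → ℤ) (w : Fin r → K) (T : Set (Pl K)) (D : Pl K → Fin k → ℤ)
  (D' : Pl K → Fin ρ → ℤ), Orb t s a A m p l w → Cox T D s a → 0 < c →
    (∀ i, ∃ (ψ : K) (e : Fin ρ → ℤ), ψ ≠ 0 ∧ ∀ P ∈ T, c * D P i = P.ord ψ + e ⬝ᵥ D' P) →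
    k ≤ r + ρ

/-- the lc boundary: `μ (K + Λ) = div φ`, `Λ ≥ ∑ α i (e i · D)`, the divisors `e i · D` are
effective and meet the fibre -/
structure Lc {K : Type} [Field K] [Algebra ℂ K] {d k N σ : ℕ} (u : Finset K) (y : Fin d → K)
    (T : Set (Pl K)) (D : Pl K → Fin k → ℤ) (s : Fin N → K) (a : Fin N → Fin k → ℤ)
    (m : Ideal (Algebra.adjoin ℂ (u : Set K))) (μ : ℕ) (φ : K) (e : Fin σ → Fin k → ℤ)
    (α : Fin σ → ℝ) : Prop where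
  pos : 0 < μ
  ne : φ ≠ 0
  lc : ∀ Q, Ov u Q → 0 ≤ ld y μ φ Q
  nn : ∀ i, 0 ≤ α i
  van : ∀ i, (1 : K) ∈ Ie _ m s a (e i)
  le : ∀ P ∈ T, ∑ i, α i * (e i ⬝ᵥ D P : ℤ) ≤ P.ord φ / μ - kap y P

/-- **EMB**: the embedding dimension at the closed orbit -/
def EMB : Prop := ∀ (K F : Type) [Field K] [Algebra ℂ K] [Field F] [Algebra ℂ F] [Algebra K F]
  [IsScalarTower ℂ K F] (n k N q r σ μ E : ℕ) (ε : ℝ) (u : Finset K) (Λ Γ Γ' : BD K)
  (y : Fin (n + 1) → K) (D : Pl K → Fin k → ℤ) (s : Fin N → K) (a : Fin N → Fin k → ℤ) (h g φ : K)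
  (δ b : Fin k → ℤ) (t : Fin k → F) (m : Ideal (Algebra.adjoin ℂ (u : Set K)))
  (p : Ideal (Rg s a t)) (l : Fin r → Fin k → ℤ) (w : Fin r → K) (e : Fin σ → Fin k → ℤ)
  (α : Fin σ → ℝ), 0 < q → 0 < ε → 2 ≤ k → Dy n q ε u Λ Γ Γ' y D s a h g δ b →
    Bs (n + 1) t s a _ m → Orb t s a _ m p l w → Lc u y (Tt n u Λ) D s a m μ φ e α →
    ((n + 1 + k : ℕ) : ℝ) - 2 < ∑ i, α i + r →
    Tg.EM (n + 1 + k) E 0 (((n + 1 + k : ℕ) : ℝ) - 2) → Bx.Emd E (Rg s a t) p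

/-- **EMBR** -/
def EMBR : Prop := LGF → EMB

/-- the input from the block T3 -/
def EMA : Prop := ∀ d : ℕ, 3 ≤ d → Tg.EM d (d + 1) 0 ((d : ℝ) - 2)

/-- **TIER**: the theorem on the tier -/
def TIER : Prop := ∀ (K : Type) [Field K] [Algebra ℂ K] (n k N q ρ c σ μ : ℕ) (ε : ℝ)
  (u : Finset K) (Λ Γ Γ' : BD K) (y : Fin (n + 1) → K) (D : Pl K → Fin k → ℤ) (s : Fin N → K)
  (a : Fin N → Fin k → ℤ) (h g φ : K) (δ b : Fin k → ℤ)
  (m : Ideal (Algebra.adjoin ℂ (u : Set K))) (e : Fin σ → Fin k → ℤ) (α : Fin σ → ℝ)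
  (D' : Pl K → Fin ρ → ℤ), 0 < q → 0 < ε → 2 ≤ k → Dy n q ε u Λ Γ Γ' y D s a h g δ b →
    m.IsMaximal → Lc u y (Tt n u Λ) D s a m μ φ e α → 0 < c →
    (∀ i, ∃ (ψ : K) (e : Fin ρ → ℤ), ψ ≠ 0 ∧
      ∀ P ∈ Tt n u Λ, c * D P i = P.ord ψ + e ⬝ᵥ D' P) →
    ((n + 1 + ρ : ℕ) : ℝ) < 2 + ∑ i, α i →
    ∃ (N' : ℕ) (s' : Fin N' → K) (a' : Fin N' → Fin k → ℤ) (γ : K), N' ≤ k + (2 * (n + 1) + 3) ∧
      Nz _ m γ ∧ ∀ e ψ, ψ ≠ 0 →
        (ψ ∈ Sp s' a' e ↔ ∀ P ∈ Tt n u Λ, P.ord γ = 0 → 0 ≤ P.ord ψ + e ⬝ᵥ D P)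

/-- **TOPT** -/
def TOPT : Prop := ORB → GEN → EMB → RNK → EMA → TIER

open Sl Sl.Var
open Vale.Agent.P283M.Br (Dom UnAt Base)

/-- **BAS**: the ideal of the point -/
def BAS : Prop := ∀ (X Z : Sl.Var) (f : X.X ⟶ Z.X) (V : Z.X.Opens) (z : Pt Z.X) (u : Finset X.K),
  Contraction f → z.Closed → Base (X := X.o) (Z := Z.o) f V z u →
    ∃ m : Ideal (Algebra.adjoin ℂ (u : Set X.K)), m.IsMaximal ∧ ∀ g, Nz _ m g →
      ∃ W : Z.X.Opens, IsAffineOpen W ∧ z ∈ W ∧ W ≤ V ∧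
        ∀ x ∈ pre f V, x ∈ pre f W ↔ UnAt (X := X.o) g x

/-- **OFL**: from an lc pair to the places -/
def OFL : Prop := ∀ (n μ : ℕ) (X : Sl.Var) (W : X.X.Opens) (ω : X.Form n) (Λ : X.QDiv)
  (φ h : X.K), 0 < μ → h ≠ 0 → P283M.Br.Frm (X := X.o) ω h → Pair (0 ≤ ·) W ω Λ →
    (∀ x ∈ W, LocalEq (logCan ω Λ) μ φ x) → ∀ (Q : Pl X.K) (x : Pt X.X), x ∈ W →
      Dom (X := X.o) Q.ring x → 0 ≤ 1 + cn X.K n Q - (Q.ord (φ / h ^ μ) : ℝ) / μ

/-- **MEM**: the membership -/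
def MEM : Prop := ∀ (d : ℕ) (ε : ℝ) (X Z : Sl.Var) (f : X.X ⟶ Z.X) (ω : X.Form d) (B : X.QDiv)
  (z : Pt Z.X), 1 ≤ d → 0 < ε → dimension X.str = d → ω.Nonzero → Pair (ε ≤ ·) (all X.X) ω B →
    Contraction f → FanoType f ω → NefOver f (-logCan ω B) → z.Closed → LowComplexity f ω B z →
    Generated (2 * d + 3) f ω B z

/-- **TOPS** -/
def TOPS : Prop := BAS → OFL → TIER → MEM

end Vale.Agent.P283R.Lx
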